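import Vale.Agent.H86.CK.Sqrt

/-!
A convexity lemma and the resulting two-variable key inequality for the Courtade-Kumar problem
(P322).
-/

namespace Vale.Agent.H86.CK

open Real

/-- The function `Ξ(t) = η(1 + 2t) - 4ε(1-ε) (η(ε + t) + η(1 - ε + t))` with `η(x) = x log x`. -/
noncomputable def auxXi (ε t : ℝ) : ℝ :=
  (1 + 2 * t) * log (1 + 2 * t)
    - 4 * ε * (1 - ε) * ((ε + t) * log (ε + t) + (1 - ε + t) * log (1 - ε + t))

/-- First derivative of `Ξ`. -/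
noncomputable def auxXi' (ε t : ℝ) : ℝ :=
  2 * (log (1 + 2 * t) + 1)
    - 4 * ε * (1 - ε) * ((log (ε + t) + 1) + (log (1 - ε + t) + 1))

/-- Second derivative of `Ξ`. -/
noncomputable def auxXi'' (ε t : ℝ) : ℝ :=
  4 / (1 + 2 * t) - 4 * ε * (1 - ε) * (1 / (ε + t) + 1 / (1 - ε + t))

lemma hasDerivAt_auxXi {ε t : ℝ} (h0 : 0 < ε) (h1 : ε < 1 / 2) (ht : 0 ≤ t) :
    HasDerivAt (auxXi ε) (auxXi' ε t) t := by
  have i1 : HasDerivAt (fun t : ℝ => 1 + 2 * t) (2 * 1) t :=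
    ((hasDerivAt_id t).const_mul 2).const_add 1
  have i2 : HasDerivAt (fun t : ℝ => ε + t) 1 t := (hasDerivAt_id t).const_add ε
  have i3 : HasDerivAt (fun t : ℝ => 1 - ε + t) 1 t := (hasDerivAt_id t).const_add (1 - ε)
  have e1 : HasDerivAt (fun t : ℝ => (1 + 2 * t) * log (1 + 2 * t))
      ((log (1 + 2 * t) + 1) * (2 * 1)) t := by
    have := (Real.hasDerivAt_mul_log (x := 1 + 2 * t) (by positivity)).comp t i1
    exact this
  have e2 : HasDerivAt (fun t : ℝ => (ε + t) * log (ε + t)) ((log (ε + t) + 1) * 1) t := by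
    have := (Real.hasDerivAt_mul_log (x := ε + t) (by positivity)).comp t i2
    exact this
  have e3 : HasDerivAt (fun t : ℝ => (1 - ε + t) * log (1 - ε + t))
      ((log (1 - ε + t) + 1) * 1) t := by
    have := (Real.hasDerivAt_mul_log (x := 1 - ε + t) (by linarith)).comp t i3
    exact this
  have h := e1.sub ((e2.add e3).const_mul (4 * ε * (1 - ε)))
  refine HasDerivAt.congr_deriv h ?_
  unfold auxXi'
  ring

lemma hasDerivAt_auxXi' {ε t : ℝ} (h0 : 0 < ε) (h1 : ε < 1 / 2) (ht : 0 ≤ t) :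
    HasDerivAt (auxXi' ε) (auxXi'' ε t) t := by
  have i1 : HasDerivAt (fun t : ℝ => 1 + 2 * t) (2 * 1) t :=
    ((hasDerivAt_id t).const_mul 2).const_add 1
  have i2 : HasDerivAt (fun t : ℝ => ε + t) 1 t := (hasDerivAt_id t).const_add ε
  have i3 : HasDerivAt (fun t : ℝ => 1 - ε + t) 1 t := (hasDerivAt_id t).const_add (1 - ε)
  have e1 : HasDerivAt (fun t : ℝ => log (1 + 2 * t) + 1) (2 * 1 / (1 + 2 * t)) t :=
    (i1.log (by positivity)).add_const 1
  have e2 : HasDerivAt (fun t : ℝ => log (ε + t) + 1) (1 / (ε + t)) t :=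
    (i2.log (by positivity)).add_const 1
  have e3 : HasDerivAt (fun t : ℝ => log (1 - ε + t) + 1) (1 / (1 - ε + t)) t :=
    (i3.log (by linarith)).add_const 1
  have h := (e1.const_mul 2).sub ((e2.add e3).const_mul (4 * ε * (1 - ε)))
  refine HasDerivAt.congr_deriv h ?_
  unfold auxXi''
  ring

lemma auxXi''_nonneg {ε t : ℝ} (h0 : 0 < ε) (h1 : ε < 1 / 2) (ht : 0 ≤ t) :
    0 ≤ auxXi'' ε t := by
  unfold auxXi''
  have hε : 0 < 1 - ε := by linarith
  have ha : 0 < ε + t := by linarith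
  have hb : 0 < 1 - ε + t := by linarith
  have hc : 0 < 1 + 2 * t := by linarith
  have e : 4 / (1 + 2 * t) - 4 * ε * (1 - ε) * (1 / (ε + t) + 1 / (1 - ε + t))
      = 4 * ((t + t ^ 2) * (1 - 2 * ε) ^ 2) / ((1 + 2 * t) * ((ε + t) * (1 - ε + t))) := by
    field_simp
    ring
  rw [e]
  positivity

lemma convexOn_auxXi {ε : ℝ} (h0 : 0 < ε) (h1 : ε < 1 / 2) :
    ConvexOn ℝ (Set.Ici (0 : ℝ)) (auxXi ε) := by
  apply convexOn_of_hasDerivWithinAt2_nonneg (convex_Ici 0) (f' := auxXi' ε) (f'' := auxXi'' ε)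
  · intro t ht
    exact (hasDerivAt_auxXi h0 h1 ht).continuousAt.continuousWithinAt
  · intro t ht
    rw [interior_Ici] at ht
    exact (hasDerivAt_auxXi h0 h1 (le_of_lt ht)).hasDerivWithinAt
  · intro t ht
    rw [interior_Ici] at ht
    exact (hasDerivAt_auxXi' h0 h1 (le_of_lt ht)).hasDerivWithinAt
  · intro t ht
    rw [interior_Ici] at ht
    exact auxXi''_nonneg h0 h1 (le_of_lt ht)

lemma auxXi_midpoint {ε : ℝ} (h0 : 0 < ε) (h1 : ε < 1 / 2) {s t : ℝ} (hs : 0 ≤ s) (ht : 0 ≤ t) :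
    2 * auxXi ε ((s + t) / 2) ≤ auxXi ε s + auxXi ε t := by
  have h := (convexOn_auxXi h0 h1).2 (Set.mem_Ici.mpr hs) (Set.mem_Ici.mpr ht)
    (by norm_num : (0 : ℝ) ≤ 1 / 2) (by norm_num : (0 : ℝ) ≤ 1 / 2) (by norm_num)
  simp only [smul_eq_mul] at h
  have e : (1 / 2 : ℝ) * s + 1 / 2 * t = (s + t) / 2 := by ring
  rw [e] at h
  linarith

end Vale.Agent.H86.CK
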