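import Vale.Agent.H86.CK.Entropy

/-!
The noise operator of the binary symmetric channel on the Boolean cube and the
strong data processing inequality for `[0,1]`-valued functions (P322).
-/

namespace Vale.Agent.H86.CK

open Real

/-- Transition kernel of `n` independent binary symmetric channels. -/
noncomputable def ker (ε : ℝ) (n : ℕ) (x y : Fin n → Bool) : ℝ :=
  ∏ j : Fin n, (if x j = y j then 1 - ε else ε)

/-- The noise operator. -/
noncomputable def noise (ε : ℝ) (n : ℕ) (g : (Fin n → Bool) → ℝ) (y : Fin n → Bool) : ℝ :=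
  ∑ x : Fin n → Bool, ker ε n x y * g x

lemma sum_insertNth {n : ℕ} (i : Fin (n + 1)) (F : (Fin (n + 1) → Bool) → ℝ) :
    ∑ x : Fin (n + 1) → Bool, F x = ∑ a : Bool, ∑ x' : Fin n → Bool, F (i.insertNth a x') := by
  rw [← Fintype.sum_prod_type' (f := fun a x' => F (i.insertNth a x'))]
  exact (Fintype.sum_equiv (Fin.insertNthEquiv (fun _ => Bool) i) _ _ (fun p => rfl)).symm

lemma ker_insertNth (ε : ℝ) {n : ℕ} (i : Fin (n + 1)) (a b : Bool) (x y : Fin n → Bool) :
    ker ε (n + 1) (i.insertNth a x) (i.insertNth b y)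
      = (if a = b then 1 - ε else ε) * ker ε n x y := by
  unfold ker
  rw [Fin.prod_univ_succAbove _ i]
  simp

lemma ker_nonneg {ε : ℝ} (h0 : 0 ≤ ε) (h1 : ε ≤ 1) (n : ℕ) (x y : Fin n → Bool) :
    0 ≤ ker ε n x y := by
  unfold ker
  apply Finset.prod_nonneg
  intro j _
  split_ifs <;> linarith

lemma ker_comm (ε : ℝ) (n : ℕ) (x y : Fin n → Bool) : ker ε n x y = ker ε n y x := by
  unfold ker
  apply Finset.prod_congr rfl
  intro j _
  simp [eq_comm]

lemma noise_insertNth (ε : ℝ) {n : ℕ} (i : Fin (n + 1)) (g : (Fin (n + 1) → Bool) → ℝ)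
    (b : Bool) (y : Fin n → Bool) :
    noise ε (n + 1) g (i.insertNth b y)
      = noise ε n (fun x' => (1 - ε) * g (i.insertNth b x') + ε * g (i.insertNth (!b) x')) y := by
  unfold noise
  rw [sum_insertNth i]
  simp only [ker_insertNth]
  rw [Fintype.sum_bool, ← Finset.sum_add_distrib]
  apply Finset.sum_congr rfl
  intro x' _
  cases b <;> simp <;> ring

lemma ker_sum (ε : ℝ) (n : ℕ) (y : Fin n → Bool) : ∑ x, ker ε n x y = 1 := by
  induction n with
  | zero => simp [ker]
  | succ n ih =>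
    rw [sum_insertNth 0]
    have hy : y = (0 : Fin (n + 1)).insertNth (y 0) (Fin.removeNth 0 y) :=
      (Fin.insertNth_self_removeNth 0 y).symm
    rw [hy]
    simp only [ker_insertNth]
    simp only [← Finset.mul_sum, ih]
    rw [Fintype.sum_bool]
    cases y 0 <;> simp

lemma ker_sum' (ε : ℝ) (n : ℕ) (x : Fin n → Bool) : ∑ y, ker ε n x y = 1 := by
  simp only [ker_comm ε n x]
  exact ker_sum ε n x

lemma noise_nonneg {ε : ℝ} (h0 : 0 ≤ ε) (h1 : ε ≤ 1) {n : ℕ} {g : (Fin n → Bool) → ℝ}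
    (hg : ∀ x, 0 ≤ g x) (y : Fin n → Bool) : 0 ≤ noise ε n g y := by
  unfold noise
  exact Finset.sum_nonneg fun x _ => mul_nonneg (ker_nonneg h0 h1 n x y) (hg x)

lemma noise_le_one {ε : ℝ} (h0 : 0 ≤ ε) (h1 : ε ≤ 1) {n : ℕ} {g : (Fin n → Bool) → ℝ}
    (hg : ∀ x, g x ≤ 1) (y : Fin n → Bool) : noise ε n g y ≤ 1 := by
  unfold noise
  calc ∑ x, ker ε n x y * g x ≤ ∑ x, ker ε n x y * 1 :=
        Finset.sum_le_sum fun x _ => mul_le_mul_of_nonneg_left (hg x) (ker_nonneg h0 h1 n x y)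
    _ = 1 := by simp [ker_sum]

lemma sum_noise (ε : ℝ) (n : ℕ) (g : (Fin n → Bool) → ℝ) :
    ∑ y, noise ε n g y = ∑ x, g x := by
  unfold noise
  rw [Finset.sum_comm]
  apply Finset.sum_congr rfl
  intro x _
  rw [← Finset.sum_mul, ker_sum', one_mul]

/-- Strong data processing inequality for `[0,1]`-valued functions on the cube. -/
theorem sdpi {ε : ℝ} (hε0 : 0 ≤ ε) (hε1 : ε ≤ 1 / 2) :
    ∀ (n : ℕ) (g : (Fin n → Bool) → ℝ), (∀ x, 0 ≤ g x ∧ g x ≤ 1) →
      (1 - 2 * ε) ^ 2 * ∑ x, binEntropy (g x)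
          + (1 - (1 - 2 * ε) ^ 2) * Hs (∑ x, g x) (∑ x, (1 - g x))
        ≤ ∑ y, binEntropy (noise ε n g y) := by
  intro n
  induction n with
  | zero =>
    intro g hg
    have h1 : ∀ y : Fin 0 → Bool, noise ε 0 g y = g y := by
      intro y
      unfold noise ker
      rw [Fintype.sum_unique]
      simp only [Finset.univ_eq_empty, Finset.prod_empty, one_mul]
      exact congrArg g (Subsingleton.elim _ _)
    simp only [h1]
    rw [Fintype.sum_unique, Fintype.sum_unique, Fintype.sum_unique, ← binEntropy_eq_Hs]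
    apply le_of_eq
    ring
  | succ n ih =>
    intro g hg
    have hρ0 : 0 ≤ (1 - 2 * ε) ^ 2 := sq_nonneg _
    have hρ1 : 0 ≤ 1 - (1 - 2 * ε) ^ 2 := by nlinarith
    -- slices
    set gt : (Fin n → Bool) → ℝ := fun x' => g ((0 : Fin (n + 1)).insertNth true x') with hgt
    set gf : (Fin n → Bool) → ℝ := fun x' => g ((0 : Fin (n + 1)).insertNth false x') with hgf
    have hgt01 : ∀ x, 0 ≤ gt x ∧ gt x ≤ 1 := fun x => hg _
    have hgf01 : ∀ x, 0 ≤ gf x ∧ gf x ≤ 1 := fun x => hg _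
    have hGt : ∀ x, 0 ≤ (1 - ε) * gt x + ε * gf x ∧ (1 - ε) * gt x + ε * gf x ≤ 1 := by
      intro x
      have := hgt01 x; have := hgf01 x
      constructor <;> nlinarith
    have hGf : ∀ x, 0 ≤ (1 - ε) * gf x + ε * gt x ∧ (1 - ε) * gf x + ε * gt x ≤ 1 := by
      intro x
      have := hgt01 x; have := hgf01 x
      constructor <;> nlinarith
    have iht := ih (fun x => (1 - ε) * gt x + ε * gf x) hGt
    have ihf := ih (fun x => (1 - ε) * gf x + ε * gt x) hGf
    -- the right-hand side splits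
    have hR : ∑ y, binEntropy (noise ε (n + 1) g y)
        = ∑ y', binEntropy (noise ε n (fun x => (1 - ε) * gt x + ε * gf x) y')
          + ∑ y', binEntropy (noise ε n (fun x => (1 - ε) * gf x + ε * gt x) y') := by
      rw [sum_insertNth 0, Fintype.sum_bool]
      simp only [noise_insertNth]
      rfl
    have hL1 : ∑ x, binEntropy (g x) = ∑ x', (binEntropy (gt x') + binEntropy (gf x')) := by
      rw [sum_insertNth 0, Fintype.sum_bool, Finset.sum_add_distrib]
    have hA : ∑ x, g x = ∑ x', gt x' + ∑ x', gf x' := by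
      rw [sum_insertNth 0, Fintype.sum_bool]
    have hA' : ∑ x, (1 - g x) = ∑ x', (1 - gt x') + ∑ x', (1 - gf x') := by
      rw [sum_insertNth 0, Fintype.sum_bool]
    -- notation
    set N : ℝ := ∑ _x' : Fin n → Bool, (1 : ℝ) with hN
    set At : ℝ := ∑ x', gt x' with hAt
    set Af : ℝ := ∑ x', gf x' with hAf
    have hNpos : 0 < N := by
      rw [hN]; simp
    have hAt0 : 0 ≤ At := Finset.sum_nonneg fun x _ => (hgt01 x).1
    have hAf0 : 0 ≤ Af := Finset.sum_nonneg fun x _ => (hgf01 x).1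
    have hAt1 : At ≤ N := Finset.sum_le_sum fun x _ => (hgt01 x).2
    have hAf1 : Af ≤ N := Finset.sum_le_sum fun x _ => (hgf01 x).2
    have hsub_t : ∑ x', (1 - gt x') = N - At := by
      rw [Finset.sum_sub_distrib]
    have hsub_f : ∑ x', (1 - gf x') = N - Af := by
      rw [Finset.sum_sub_distrib]
    have hsumGt : ∑ x', ((1 - ε) * gt x' + ε * gf x') = (1 - ε) * At + ε * Af := by
      rw [Finset.sum_add_distrib, ← Finset.mul_sum, ← Finset.mul_sum]
    have hsumGf : ∑ x', ((1 - ε) * gf x' + ε * gt x') = ε * At + (1 - ε) * Af := by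
      rw [Finset.sum_add_distrib, ← Finset.mul_sum, ← Finset.mul_sum]; ring
    have hsumGt' : ∑ x', (1 - ((1 - ε) * gt x' + ε * gf x')) = N - ((1 - ε) * At + ε * Af) := by
      rw [Finset.sum_sub_distrib, hsumGt]
    have hsumGf' : ∑ x', (1 - ((1 - ε) * gf x' + ε * gt x')) = N - (ε * At + (1 - ε) * Af) := by
      rw [Finset.sum_sub_distrib, hsumGf]
    rw [hsumGt, hsumGt'] at iht
    rw [hsumGf, hsumGf'] at ihf
    -- pointwise two-point inequality
    have hpt : ∀ x', (1 - 2 * ε) ^ 2 * (binEntropy (gt x') + binEntropy (gf x'))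
        + (1 - (1 - 2 * ε) ^ 2) * (2 * log 2 + binEntropy (gt x') + binEntropy (gf x')
            - Hs (gt x') (gf x') - Hs (1 - gt x') (1 - gf x'))
        ≤ binEntropy ((1 - ε) * gt x' + ε * gf x') + binEntropy ((1 - ε) * gf x' + ε * gt x') := by
      intro x'
      have := twoPoint hε0 hε1 (hgt01 x').1 (hgt01 x').2 (hgf01 x').1 (hgf01 x').2
      rw [two_binEntropy_mid] at this
      have e : ε * gt x' + (1 - ε) * gf x' = (1 - ε) * gf x' + ε * gt x' := by ring
      rw [e] at this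
      exact this
    have hptsum := Finset.sum_le_sum (fun x' (_ : x' ∈ (Finset.univ : Finset (Fin n → Bool))) => hpt x')
    -- superadditivity
    have hU1 : ∑ x', Hs (gt x') (gf x') ≤ Hs At Af :=
      Hs_sum_le Finset.univ gt gf (fun x _ => (hgt01 x).1) (fun x _ => (hgf01 x).1)
    have hU2 : ∑ x', Hs (1 - gt x') (1 - gf x') ≤ Hs (N - At) (N - Af) := by
      have := Hs_sum_le Finset.univ (fun x => 1 - gt x) (fun x => 1 - gf x)
        (fun x _ => by linarith [(hgt01 x).2]) (fun x _ => by linarith [(hgf01 x).2])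
      rw [hsub_t, hsub_f] at this
      exact this
    -- aggregated two-point inequality
    have hagg := twoPoint_scaled hε0 hε1 hNpos hAt0 hAt1 hAf0 hAf1
    have hfour := Hs_four At Af N
    -- assemble
    rw [hR, hL1, hA, hA', hsub_t, hsub_f]
    have hZ : Hs (At + Af) (N - At + (N - Af)) = Hs (At + Af) (2 * N - At - Af) := by
      congr 1; ring
    rw [hZ]
    -- expand the pointwise sum
    have hconst : ∑ _x' : Fin n → Bool, (2 * log 2) = 2 * N * log 2 := by
      rw [hN, Finset.mul_sum, Finset.sum_mul]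
      simp
    have hsum_expand : ∑ x', ((1 - 2 * ε) ^ 2 * (binEntropy (gt x') + binEntropy (gf x'))
        + (1 - (1 - 2 * ε) ^ 2) * (2 * log 2 + binEntropy (gt x') + binEntropy (gf x')
            - Hs (gt x') (gf x') - Hs (1 - gt x') (1 - gf x')))
        = (1 - 2 * ε) ^ 2 * ∑ x', (binEntropy (gt x') + binEntropy (gf x'))
          + (1 - (1 - 2 * ε) ^ 2) * (2 * N * log 2 + ∑ x', (binEntropy (gt x') + binEntropy (gf x'))
            - ∑ x', Hs (gt x') (gf x') - ∑ x', Hs (1 - gt x') (1 - gf x')) := by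
      rw [← hconst]
      simp only [Finset.sum_add_distrib, Finset.sum_sub_distrib, ← Finset.mul_sum]
      ring
    rw [hsum_expand] at hptsum
    simp only [Finset.sum_add_distrib] at hptsum ⊢
    have m1 := mul_le_mul_of_nonneg_left hptsum hρ0
    have m2 := mul_le_mul_of_nonneg_left hagg hρ1
    have m3 : 0 ≤ (1 - 2 * ε) ^ 2 * (1 - (1 - 2 * ε) ^ 2)
        * ((Hs At Af - ∑ x', Hs (gt x') (gf x'))
          + (Hs (N - At) (N - Af) - ∑ x', Hs (1 - gt x') (1 - gf x'))) :=
      mul_nonneg (mul_nonneg hρ0 hρ1) (by linarith)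
    have m4 : (1 - 2 * ε) ^ 2 * (1 - (1 - 2 * ε) ^ 2) * Hs (At + Af) (2 * N - At - Af)
        = (1 - 2 * ε) ^ 2 * (1 - (1 - 2 * ε) ^ 2)
          * (2 * N * log 2 + Hs At (N - At) + Hs Af (N - Af) - Hs At Af - Hs (N - At) (N - Af)) := by
      rw [hfour]
    linarith [m1, m2, m3, m4, iht, ihf]

end Vale.Agent.H86.CK
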