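import Mathlib

/-!
Definitions for the Courtade-Kumar problem (P322): the joint law of `(f(X), Y)`,
mutual information in bits, and the influence of a coordinate.
-/

namespace Vale.Agent.H86.CK

/-- The joint probability mass function of `(f(X), Y)`, where `X` is uniform on `{0,1}^n` and `Y`
is obtained from `X` by flipping each coordinate independently with probability `ε`:
`jointPmf n ε f (b, y) = P(f(X) = b, Y = y) = ∑_{x : f x = b} 2^{-n} ∏_j (if x j = y j then 1 - ε else ε)`. -/
noncomputable def jointPmf (n : ℕ) (ε : ℝ) (f : (Fin n → Bool) → Bool)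
    (p : Bool × (Fin n → Bool)) : ℝ :=
  ∑ x : Fin n → Bool,
    if f x = p.1 then (1 / 2 : ℝ) ^ n * ∏ j : Fin n, (if x j = p.2 j then 1 - ε else ε) else 0

/-- Mutual information, in bits, of a joint probability mass function `P` on a finite product
`α × β`: `∑_{a,b} P(a,b) log₂ (P(a,b) / (P_α(a) P_β(b)))`, where `P_α`, `P_β` are the marginals
(terms with `P(a,b) = 0` vanish). -/
noncomputable def mutualInfoBits {α β : Type} [Fintype α] [Fintype β] (P : α × β → ℝ) : ℝ :=
  ∑ a : α, ∑ b : β,
    P (a, b) * Real.logb 2 (P (a, b) / ((∑ b' : β, P (a, b')) * (∑ a' : α, P (a', b))))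

/-- The influence of coordinate `i` on `f`: the probability, for uniform `x`, that flipping the
`i`-th bit of `x` changes `f x`. -/
noncomputable def influence (n : ℕ) (f : (Fin n → Bool) → Bool) (i : Fin n) : ℝ :=
  ((Finset.univ.filter
      (fun x : Fin n → Bool => f x ≠ f (Function.update x i (!(x i))))).card : ℝ) / 2 ^ n

end Vale.Agent.H86.CK
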