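import Mathlib

/-!
Scalar entropy lemmas used for the Courtade-Kumar near-dictator theorem (P322).
-/

namespace Vale.Agent.H86.CK

open Real

/-- Unnormalised binary entropy `(a+b) log (a+b) - a log a - b log b`. -/
noncomputable def Hs (a b : ℝ) : ℝ := negMulLog a + negMulLog b - negMulLog (a + b)

lemma Hs_comm (a b : ℝ) : Hs a b = Hs b a := by
  unfold Hs; rw [add_comm a b]; ring

lemma Hs_mul (t a b : ℝ) : Hs (t * a) (t * b) = t * Hs a b := by
  unfold Hs
  rw [← mul_add, negMulLog_mul, negMulLog_mul, negMulLog_mul]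
  ring

lemma binEntropy_eq_Hs (p : ℝ) : binEntropy p = Hs p (1 - p) := by
  unfold Hs
  rw [binEntropy_eq_negMulLog_add_negMulLog_one_sub]
  simp

lemma Hs_zero_left (b : ℝ) : Hs 0 b = 0 := by simp [Hs]

lemma Hs_zero_right (a : ℝ) : Hs a 0 = 0 := by simp [Hs]

/-- Gibbs inequality, unnormalised. -/
lemma Hs_le_cross {a b q₁ q₂ : ℝ} (ha : 0 ≤ a) (hb : 0 ≤ b) (hq₁ : 0 < q₁) (hq₂ : 0 < q₂)
    (hq : q₁ + q₂ ≤ 1) : Hs a b ≤ -(a * log q₁) - b * log q₂ := by
  rcases ha.eq_or_lt with rfl | ha'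
  · rw [Hs_zero_left]
    have : log q₂ ≤ 0 := log_nonpos hq₂.le (by linarith)
    nlinarith
  rcases hb.eq_or_lt with rfl | hb'
  · rw [Hs_zero_right]
    have : log q₁ ≤ 0 := log_nonpos hq₁.le (by linarith)
    nlinarith
  have hab : 0 < a + b := by linarith
  have h1 : log (q₁ * (a + b) / a) ≤ q₁ * (a + b) / a - 1 :=
    log_le_sub_one_of_pos (by positivity)
  have h2 : log (q₂ * (a + b) / b) ≤ q₂ * (a + b) / b - 1 :=
    log_le_sub_one_of_pos (by positivity)
  rw [log_div (by positivity) (by positivity), log_mul (by positivity) (by positivity)] at h1 h2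
  have h1' : a * (log q₁ + log (a + b) - log a) ≤ q₁ * (a + b) - a := by
    have := mul_le_mul_of_nonneg_left h1 ha'.le
    have e : a * (q₁ * (a + b) / a - 1) = q₁ * (a + b) - a := by field_simp
    linarith
  have h2' : b * (log q₂ + log (a + b) - log b) ≤ q₂ * (a + b) - b := by
    have := mul_le_mul_of_nonneg_left h2 hb'.le
    have e : b * (q₂ * (a + b) / b - 1) = q₂ * (a + b) - b := by field_simp
    linarith
  have h3 : (q₁ + q₂) * (a + b) ≤ 1 * (a + b) := mul_le_mul_of_nonneg_right hq hab.le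
  unfold Hs negMulLog
  linarith

lemma Hs_le_log_two {a b : ℝ} (ha : 0 ≤ a) (hb : 0 ≤ b) : Hs a b ≤ (a + b) * log 2 := by
  have h := Hs_le_cross (q₁ := 1 / 2) (q₂ := 1 / 2) ha hb (by norm_num) (by norm_num) (by norm_num)
  have e : log (1 / 2 : ℝ) = -log 2 := by
    rw [one_div, log_inv]
  rw [e] at h
  linarith

lemma Hs_superadd {a b c d : ℝ} (ha : 0 ≤ a) (hb : 0 ≤ b) (hc : 0 ≤ c) (hd : 0 ≤ d) :
    Hs a b + Hs c d ≤ Hs (a + c) (b + d) := by
  rcases (add_nonneg ha hc).eq_or_lt with h0 | hA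
  · have ha0 : a = 0 := by linarith
    have hc0 : c = 0 := by linarith
    subst ha0; subst hc0; simp [Hs_zero_left]
  rcases (add_nonneg hb hd).eq_or_lt with h0 | hB
  · have hb0 : b = 0 := by linarith
    have hd0 : d = 0 := by linarith
    subst hb0; subst hd0; simp [Hs_zero_right]
  have hS : 0 < (a + c) + (b + d) := by linarith
  have hq : (a + c) / ((a + c) + (b + d)) + (b + d) / ((a + c) + (b + d)) ≤ 1 := by
    rw [← add_div, div_self hS.ne']
  have h1 := Hs_le_cross ha hb (div_pos hA hS) (div_pos hB hS) hq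
  have h2 := Hs_le_cross hc hd (div_pos hA hS) (div_pos hB hS) hq
  have hAB : Hs (a + c) (b + d) = -((a + c) * log ((a + c) / ((a + c) + (b + d))))
      - (b + d) * log ((b + d) / ((a + c) + (b + d))) := by
    unfold Hs negMulLog
    rw [log_div hA.ne' hS.ne', log_div hB.ne' hS.ne']
    ring
  rw [hAB]
  linarith

lemma Hs_sum_le {ι : Type*} (s : Finset ι) (a b : ι → ℝ) (ha : ∀ x ∈ s, 0 ≤ a x)
    (hb : ∀ x ∈ s, 0 ≤ b x) :
    ∑ x ∈ s, Hs (a x) (b x) ≤ Hs (∑ x ∈ s, a x) (∑ x ∈ s, b x) := by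
  classical
  induction s using Finset.induction_on with
  | empty => simp [Hs]
  | insert x s hx ih =>
    rw [Finset.sum_insert hx, Finset.sum_insert hx, Finset.sum_insert hx]
    have ih' := ih (fun y hy => ha y (Finset.mem_insert_of_mem hy))
      (fun y hy => hb y (Finset.mem_insert_of_mem hy))
    have := Hs_superadd (ha x (Finset.mem_insert_self x s)) (hb x (Finset.mem_insert_self x s))
      (Finset.sum_nonneg fun y hy => ha y (Finset.mem_insert_of_mem hy))
      (Finset.sum_nonneg fun y hy => hb y (Finset.mem_insert_of_mem hy))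
    linarith

/-- The four-cell identity. -/
lemma Hs_four (P Q N : ℝ) :
    Hs (P + Q) (2 * N - P - Q) =
      2 * N * log 2 + Hs P (N - P) + Hs Q (N - Q) - Hs P Q - Hs (N - P) (N - Q) := by
  unfold Hs
  have h1 : P + Q + (2 * N - P - Q) = 2 * N := by ring
  have h2 : P + (N - P) = N := by ring
  have h3 : Q + (N - Q) = N := by ring
  have h4 : N - P + (N - Q) = 2 * N - P - Q := by ring
  rw [h1, h2, h3, h4, negMulLog_mul 2 N]
  have h5 : negMulLog 2 = -(2 * log 2) := by unfold negMulLog; ring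
  rw [h5]
  ring

lemma two_binEntropy_mid (p q : ℝ) :
    2 * binEntropy ((p + q) / 2) =
      2 * log 2 + binEntropy p + binEntropy q - Hs p q - Hs (1 - p) (1 - q) := by
  rw [binEntropy_eq_Hs, ← Hs_mul, binEntropy_eq_Hs p, binEntropy_eq_Hs q]
  have h := Hs_four p q 1
  have e1 : 2 * ((p + q) / 2) = p + q := by ring
  have e2 : 2 * (1 - (p + q) / 2) = 2 * 1 - p - q := by ring
  rw [e1, e2, h]
  ring

/-- `psi v = (1+v) log (1+v) + (1-v) log (1-v)`. -/
noncomputable def psi (v : ℝ) : ℝ := -negMulLog (1 + v) - negMulLog (1 - v)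

lemma psi_neg (v : ℝ) : psi (-v) = psi v := by
  unfold psi
  have e1 : (1 : ℝ) + -v = 1 - v := by ring
  have e2 : (1 : ℝ) - -v = 1 + v := by ring
  rw [e1, e2]; ring

lemma psi_zero : psi 0 = 0 := by simp [psi]

lemma hasDerivAt_psi {v : ℝ} (h1 : -1 < v) (h2 : v < 1) :
    HasDerivAt psi (log (1 + v) - log (1 - v)) v := by
  have e1 : HasDerivAt (fun v : ℝ => negMulLog (1 + v)) (-log (1 + v) - 1) v := by
    have := (hasDerivAt_negMulLog (x := 1 + v) (by linarith)).comp v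
      ((hasDerivAt_id v).const_add 1)
    simpa [Function.comp_def] using this
  have e2 : HasDerivAt (fun v : ℝ => negMulLog (1 - v)) (-(-log (1 - v) - 1)) v := by
    have := (hasDerivAt_negMulLog (x := 1 - v) (by linarith)).comp v
      ((hasDerivAt_id v).const_sub 1)
    simpa [Function.comp_def] using this
  have := (e1.neg).sub e2
  have e : -(-log (1 + v) - 1) - -(-log (1 - v) - 1) = log (1 + v) - log (1 - v) := by ring
  rw [e] at this
  exact this

lemma log_ratio_contract {ρ v : ℝ} (hρ0 : 0 ≤ ρ) (hρ1 : ρ ≤ 1) (hv0 : 0 ≤ v) (hv1 : v < 1) :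
    log (1 + ρ * v) - log (1 - ρ * v) ≤ ρ * (log (1 + v) - log (1 - v)) := by
  have hρv : |ρ * v| < 1 := by
    rw [abs_of_nonneg (mul_nonneg hρ0 hv0)]
    calc ρ * v ≤ 1 * v := by gcongr
      _ < 1 := by linarith
  have hv : |v| < 1 := by rw [abs_of_nonneg hv0]; exact hv1
  have s1 := hasSum_log_sub_log_of_abs_lt_one hρv
  have s2 := (hasSum_log_sub_log_of_abs_lt_one hv).mul_left ρ
  refine hasSum_le (fun k => ?_) s1 s2
  have h1 : (ρ * v) ^ (2 * k + 1) ≤ ρ * v ^ (2 * k + 1) := by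
    rw [mul_pow, pow_succ ρ]
    have h : ρ ^ (2 * k) ≤ 1 := pow_le_one₀ hρ0 hρ1
    have hv' : 0 ≤ v ^ (2 * k + 1) := by positivity
    have := mul_le_mul_of_nonneg_right h (mul_nonneg hρ0 hv')
    nlinarith
  have h2 : (0 : ℝ) ≤ 2 * (1 / (2 * (k : ℝ) + 1)) := by positivity
  calc 2 * (1 / (2 * (k : ℝ) + 1)) * (ρ * v) ^ (2 * k + 1)
      ≤ 2 * (1 / (2 * (k : ℝ) + 1)) * (ρ * v ^ (2 * k + 1)) := by gcongr
    _ = ρ * (2 * (1 / (2 * (k : ℝ) + 1)) * v ^ (2 * k + 1)) := by ring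

lemma psi_contract {ρ v : ℝ} (hρ0 : 0 ≤ ρ) (hρ1 : ρ ≤ 1) (hv : |v| ≤ 1) :
    psi (ρ * v) ≤ ρ ^ 2 * psi v := by
  wlog hv0 : 0 ≤ v with H
  · have := H hρ0 hρ1 (v := -v) (by simpa using hv) (by linarith)
    rw [mul_neg, psi_neg, psi_neg] at this
    exact this
  have hv1 : v ≤ 1 := (abs_le.mp hv).2
  have hKcont : ContinuousOn (fun w : ℝ => ρ ^ 2 * psi w - psi (ρ * w)) (Set.Icc 0 1) := by
    have : Continuous (fun w : ℝ => ρ ^ 2 * psi w - psi (ρ * w)) := by
      unfold psi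
      fun_prop
    exact this.continuousOn
  have hKderiv : ∀ w ∈ interior (Set.Icc (0 : ℝ) 1),
      HasDerivWithinAt (fun w : ℝ => ρ ^ 2 * psi w - psi (ρ * w))
        (ρ ^ 2 * (log (1 + w) - log (1 - w)) - (log (1 + ρ * w) - log (1 - ρ * w)) * ρ)
        (interior (Set.Icc (0 : ℝ) 1)) w := by
    intro w hw
    rw [interior_Icc] at hw
    have hρw : ρ * w < 1 := by nlinarith [hw.1, hw.2]
    have hρw0 : 0 ≤ ρ * w := mul_nonneg hρ0 hw.1.le
    have d1 := (hasDerivAt_psi (v := w) (by linarith [hw.1]) hw.2).const_mul (ρ ^ 2)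
    have d2 : HasDerivAt (fun w : ℝ => psi (ρ * w))
        ((log (1 + ρ * w) - log (1 - ρ * w)) * ρ) w := by
      have := (hasDerivAt_psi (v := ρ * w) (by linarith) hρw).comp w
        ((hasDerivAt_id w).const_mul ρ)
      simpa [Function.comp_def] using this
    exact (d1.sub d2).hasDerivWithinAt
  have hmono : MonotoneOn (fun w : ℝ => ρ ^ 2 * psi w - psi (ρ * w)) (Set.Icc 0 1) := by
    apply monotoneOn_of_hasDerivWithinAt_nonneg (convex_Icc 0 1) hKcont hKderiv
    intro w hw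
    rw [interior_Icc] at hw
    have := log_ratio_contract hρ0 hρ1 hw.1.le hw.2
    nlinarith [mul_nonneg hρ0 (sub_nonneg.mpr this)]
  have := hmono (Set.left_mem_Icc.mpr zero_le_one) ⟨hv0, hv1⟩ hv0
  simp only [mul_zero, psi_zero, sub_zero] at this
  linarith

lemma negMulLog_add_sub (c v : ℝ) :
    negMulLog (c * (1 + v)) + negMulLog (c * (1 - v)) = 2 * negMulLog c - c * psi v := by
  rw [negMulLog_mul, negMulLog_mul]; unfold psi; ring

lemma secondDiff_contract {ρ c u : ℝ} (hρ0 : 0 ≤ ρ) (hρ1 : ρ ≤ 1) (hc : 0 ≤ c) (hu : |u| ≤ c) :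
    2 * negMulLog c - negMulLog (c + ρ * u) - negMulLog (c - ρ * u)
      ≤ ρ ^ 2 * (2 * negMulLog c - negMulLog (c + u) - negMulLog (c - u)) := by
  rcases hc.eq_or_lt with rfl | hc'
  · have : u = 0 := by simpa using hu
    subst this; simp
  have e1 := negMulLog_add_sub c (u / c)
  have e2 := negMulLog_add_sub c (ρ * (u / c))
  have h1 : c * (1 + u / c) = c + u := by field_simp
  have h2 : c * (1 - u / c) = c - u := by field_simp
  have h3 : c * (1 + ρ * (u / c)) = c + ρ * u := by field_simp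
  have h4 : c * (1 - ρ * (u / c)) = c - ρ * u := by field_simp
  rw [h1, h2] at e1
  rw [h3, h4] at e2
  have hv : |u / c| ≤ 1 := by
    rw [abs_div, abs_of_pos hc']
    exact div_le_one_of_le₀ hu hc'.le
  have := mul_le_mul_of_nonneg_left (psi_contract hρ0 hρ1 hv) hc'.le
  have e1' : 2 * negMulLog c - negMulLog (c + u) - negMulLog (c - u) = c * psi (u / c) := by
    linarith
  have e2' : 2 * negMulLog c - negMulLog (c + ρ * u) - negMulLog (c - ρ * u)
      = c * psi (ρ * (u / c)) := by linarith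
  rw [e1', e2']
  linarith

/-- Two-point strong data processing inequality, centred form. -/
lemma twoPoint' {ρ m δ : ℝ} (hρ0 : 0 ≤ ρ) (hρ1 : ρ ≤ 1) (h1 : |δ| ≤ m) (h2 : |δ| ≤ 1 - m) :
    ρ ^ 2 * (binEntropy (m + δ) + binEntropy (m - δ)) + (1 - ρ ^ 2) * (2 * binEntropy m)
      ≤ binEntropy (m + ρ * δ) + binEntropy (m - ρ * δ) := by
  have hm0 : 0 ≤ m := le_trans (abs_nonneg δ) h1
  have hm1 : 0 ≤ 1 - m := le_trans (abs_nonneg δ) h2
  have A := secondDiff_contract hρ0 hρ1 hm0 h1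
  have B := secondDiff_contract hρ0 hρ1 hm1 h2
  simp only [binEntropy_eq_negMulLog_add_negMulLog_one_sub]
  have e1 : 1 - (m + δ) = 1 - m - δ := by ring
  have e2 : 1 - (m - δ) = 1 - m + δ := by ring
  have e3 : 1 - (m + ρ * δ) = 1 - m - ρ * δ := by ring
  have e4 : 1 - (m - ρ * δ) = 1 - m + ρ * δ := by ring
  rw [e1, e2, e3, e4]
  linarith

/-- Two-point strong data processing inequality for the binary symmetric channel. -/
lemma twoPoint {ε p q : ℝ} (hε0 : 0 ≤ ε) (hε1 : ε ≤ 1 / 2) (hp0 : 0 ≤ p) (hp1 : p ≤ 1)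
    (hq0 : 0 ≤ q) (hq1 : q ≤ 1) :
    (1 - 2 * ε) ^ 2 * (binEntropy p + binEntropy q)
        + (1 - (1 - 2 * ε) ^ 2) * (2 * binEntropy ((p + q) / 2))
      ≤ binEntropy ((1 - ε) * p + ε * q) + binEntropy (ε * p + (1 - ε) * q) := by
  have key := twoPoint' (ρ := 1 - 2 * ε) (m := (p + q) / 2) (δ := (p - q) / 2)
    (by linarith) (by linarith)
    (by rw [abs_le]; constructor <;> linarith) (by rw [abs_le]; constructor <;> linarith)
  have e1 : (p + q) / 2 + (p - q) / 2 = p := by ring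
  have e2 : (p + q) / 2 - (p - q) / 2 = q := by ring
  have e3 : (p + q) / 2 + (1 - 2 * ε) * ((p - q) / 2) = (1 - ε) * p + ε * q := by ring
  have e4 : (p + q) / 2 - (1 - 2 * ε) * ((p - q) / 2) = ε * p + (1 - ε) * q := by ring
  rw [e1, e2, e3, e4] at key
  exact key

/-- Scaled two-point inequality. -/
lemma twoPoint_scaled {ε P Q N : ℝ} (hε0 : 0 ≤ ε) (hε1 : ε ≤ 1 / 2) (hN : 0 < N)
    (hP0 : 0 ≤ P) (hP1 : P ≤ N) (hQ0 : 0 ≤ Q) (hQ1 : Q ≤ N) :
    (1 - 2 * ε) ^ 2 * (Hs P (N - P) + Hs Q (N - Q))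
        + (1 - (1 - 2 * ε) ^ 2) * Hs (P + Q) (2 * N - P - Q)
      ≤ Hs ((1 - ε) * P + ε * Q) (N - ((1 - ε) * P + ε * Q))
        + Hs (ε * P + (1 - ε) * Q) (N - (ε * P + (1 - ε) * Q)) := by
  have key := twoPoint (p := P / N) (q := Q / N) hε0 hε1 (by positivity)
    ((div_le_one hN).mpr hP1) (by positivity) ((div_le_one hN).mpr hQ1)
  have key' := mul_le_mul_of_nonneg_left key hN.le
  have f1 : ∀ x : ℝ, N * binEntropy (x / N) = Hs x (N - x) := by
    intro x
    rw [binEntropy_eq_Hs, ← Hs_mul]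
    congr 1 <;> field_simp
  have f2 : N * (2 * binEntropy ((P / N + Q / N) / 2)) = Hs (P + Q) (2 * N - P - Q) := by
    rw [binEntropy_eq_Hs, ← Hs_mul, ← Hs_mul]
    have a1 : N * (2 * ((P / N + Q / N) / 2)) = P + Q := by field_simp
    have a2 : N * (2 * (1 - (P / N + Q / N) / 2)) = 2 * N - P - Q := by field_simp; ring
    rw [a1, a2]
  have g1 : (1 - ε) * (P / N) + ε * (Q / N) = ((1 - ε) * P + ε * Q) / N := by ring
  have g2 : ε * (P / N) + (1 - ε) * (Q / N) = (ε * P + (1 - ε) * Q) / N := by ring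
  rw [g1, g2] at key'
  have lhs : N * ((1 - 2 * ε) ^ 2 * (binEntropy (P / N) + binEntropy (Q / N))
      + (1 - (1 - 2 * ε) ^ 2) * (2 * binEntropy ((P / N + Q / N) / 2)))
      = (1 - 2 * ε) ^ 2 * (Hs P (N - P) + Hs Q (N - Q))
        + (1 - (1 - 2 * ε) ^ 2) * Hs (P + Q) (2 * N - P - Q) := by
    rw [← f1 P, ← f1 Q, ← f2]; ring
  have rhs : N * (binEntropy (((1 - ε) * P + ε * Q) / N)
      + binEntropy ((ε * P + (1 - ε) * Q) / N))
      = Hs ((1 - ε) * P + ε * Q) (N - ((1 - ε) * P + ε * Q))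
        + Hs (ε * P + (1 - ε) * Q) (N - (ε * P + (1 - ε) * Q)) := by
    rw [← f1, ← f1]; ring
  rw [lhs, rhs] at key'
  exact key'

end Vale.Agent.H86.CK
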