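import Vale.Agent.H86.CK.Entropy

/-!
Scalar inequalities for the near-dictator regime (P322).
-/

namespace Vale.Agent.H86.CK

open Real

lemma Hs_eq_cross {x y : ℝ} (hx : 0 < x) (hy : 0 < y) :
    Hs x y = -(x * log (x / (x + y))) - y * log (y / (x + y)) := by
  have hS : 0 < x + y := by linarith
  unfold Hs negMulLog
  rw [log_div hx.ne' hS.ne', log_div hy.ne' hS.ne']
  ring

lemma binEntropy_eq_logs (ε : ℝ) : binEntropy ε = -(ε * log ε) - (1 - ε) * log (1 - ε) := by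
  rw [binEntropy_eq_negMulLog_add_negMulLog_one_sub]
  unfold negMulLog
  ring

/-- A quantitative lower bound for `k(ε) = (1-ε) log (1-ε) - ε log ε`. -/
lemma k_lower {ε : ℝ} (h0 : 0 < ε) (h1 : ε < 1 / 2) :
    4 / 7 * ε * (1 - 2 * ε) ≤ (1 - ε) * log (1 - ε) - ε * log ε := by
  have hρ0 : 0 < 1 - 2 * ε := by linarith
  have hρ1 : 1 - 2 * ε < 1 := by linarith
  -- log (1-ε) - log ε ≥ 2 ρ
  have hL : 2 * (1 - 2 * ε) ≤ log (1 - ε) - log ε := by
    have h := sum_range_le_log_div hρ0.le hρ1 1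
    simp only [Finset.range_one, Finset.sum_singleton, mul_zero, zero_add, pow_one,
      Nat.cast_zero] at h
    have e : (1 + (1 - 2 * ε)) / (1 - (1 - 2 * ε)) = (1 - ε) / ε := by
      field_simp
      ring
    rw [e, log_div (by linarith) h0.ne'] at h
    linarith
  have hk : (1 - ε) * log (1 - ε) - ε * log ε
      = ε * (log (1 - ε) - log ε) + (1 - 2 * ε) * log (1 - ε) := by ring
  rw [hk]
  have hεL : ε * (2 * (1 - 2 * ε)) ≤ ε * (log (1 - ε) - log ε) :=
    mul_le_mul_of_nonneg_left hL h0.le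
  rcases le_total (2 / 5) (1 - 2 * ε) with hA | hB
  · -- ρ ≥ 2/5, ε ≤ 3/10
    have hl : 1 - (1 - ε)⁻¹ ≤ log (1 - ε) := one_sub_inv_le_log_of_pos (by linarith)
    have h3 : (1 - ε)⁻¹ ≤ 10 / 7 := by
      rw [inv_le_comm₀ (by linarith) (by norm_num)]
      linarith
    have h4 : (1 - 2 * ε) * (1 - (1 - ε)⁻¹) ≤ (1 - 2 * ε) * log (1 - ε) :=
      mul_le_mul_of_nonneg_left hl hρ0.le
    have hinv : (1 - ε)⁻¹ * (1 - ε) = 1 := inv_mul_cancel₀ (by linarith)
    have h5 : 1 - (1 - ε)⁻¹ = -(ε * (1 - ε)⁻¹) := by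
      linear_combination (-1 : ℝ) * hinv
    have h6 : ε * (1 - ε)⁻¹ ≤ ε * (10 / 7) := mul_le_mul_of_nonneg_left h3 h0.le
    have h7 : (1 - 2 * ε) * (ε * (1 - ε)⁻¹) ≤ (1 - 2 * ε) * (ε * (10 / 7)) :=
      mul_le_mul_of_nonneg_left h6 hρ0.le
    rw [h5] at h4
    linarith
  · -- ρ ≤ 2/5
    have e : (1 - ε) = (1 + (1 - 2 * ε)) / 2 := by ring
    have hl2 : log (1 - ε) = log (1 + (1 - 2 * ε)) - log 2 := by
      rw [← log_div (by linarith) (by norm_num), ← e]
    have hl : 1 - (1 + (1 - 2 * ε))⁻¹ ≤ log (1 + (1 - 2 * ε)) :=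
      one_sub_inv_le_log_of_pos (by linarith)
    have hlog2 : log 2 < 0.6931471808 := log_two_lt_d9
    set ρ : ℝ := 1 - 2 * ε with hρ
    have hε : ε = (1 - ρ) / 2 := by rw [hρ]; ring
    have hinv : (1 + ρ)⁻¹ * (1 + ρ) = 1 := inv_mul_cancel₀ (by linarith)
    have hinv_le : (1 + ρ)⁻¹ ≤ 1 := by
      rw [inv_le_one_iff₀]; right; linarith
    have hinv_pos : 0 < (1 + ρ)⁻¹ := by positivity
    -- need: 4/7 ε ρ ≤ ε (2ρ) + ρ (1 - (1+ρ)⁻¹ - log 2)
    have h5 : ρ * (1 - (1 + ρ)⁻¹ - log 2) ≤ ρ * log (1 - ε) := by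
      apply mul_le_mul_of_nonneg_left _ hρ0.le
      rw [hl2]; linarith
    have h6 : 4 / 7 * ε * ρ ≤ ε * (2 * ρ) + ρ * (1 - (1 + ρ)⁻¹ - log 2) := by
      rw [hε]
      have h7 : (2 : ℝ) / 7 * (1 - ρ) ≤ (1 - ρ) + (1 - (1 + ρ)⁻¹ - log 2) := by
        have h8 : (1 + ρ)⁻¹ ≤ 1 - ρ + ρ ^ 2 := by
          have : (1 + ρ)⁻¹ = (1 - ρ + ρ ^ 2) - ρ ^ 3 * (1 + ρ)⁻¹ := by
            field_simp
            ring
          rw [this]
          have : 0 ≤ ρ ^ 3 * (1 + ρ)⁻¹ := by positivity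
          linarith
        nlinarith
      nlinarith
    linarith

/-- Linear lower bound for the entropy of a tilted two-point vector. -/
lemma V_lower {ε t : ℝ} (h0 : 0 < ε) (h1 : ε < 1 / 2) (ht0 : 0 ≤ t) (ht1 : t ≤ 2 * ε / 7) :
    binEntropy ε + binEntropy ε / (2 * ε * (1 - ε)) * t ≤ Hs (ε + t) (1 - ε + t) := by
  have hx : 0 < ε + t := by linarith
  have hy : 0 < 1 - ε + t := by linarith
  have hS : ε + t + (1 - ε + t) = 1 + 2 * t := by ring
  have hS0 : 0 < 1 + 2 * t := by linarith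
  have hE := Hs_eq_cross hx hy
  rw [hS] at hE
  have hq : (ε + t) / (1 + 2 * t) + (1 - ε + t) / (1 + 2 * t) ≤ 1 := by
    rw [← add_div, hS, div_self hS0.ne']
  have hG := Hs_le_cross (a := ε) (b := 1 - ε) h0.le (by linarith) (div_pos hx hS0)
    (div_pos hy hS0) hq
  rw [← binEntropy_eq_Hs] at hG
  set l1 := log ((ε + t) / (1 + 2 * t)) with hl1
  set l2 := log ((1 - ε + t) / (1 + 2 * t)) with hl2
  -- l1 + l2 ≤ log ε + log (1-ε) + t ρ² / (ε (1-ε))
  have hε1 : 0 < 1 - ε := by linarith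
  have hprod : 0 < ε * (1 - ε) := mul_pos h0 hε1
  have hsum : l1 + l2 ≤ log ε + log (1 - ε) + t * (1 - 2 * ε) ^ 2 / (ε * (1 - ε)) := by
    have hP : 0 < (ε + t) / (1 + 2 * t) * ((1 - ε + t) / (1 + 2 * t)) :=
      mul_pos (div_pos hx hS0) (div_pos hy hS0)
    have e1 : l1 + l2 = log ((ε + t) / (1 + 2 * t) * ((1 - ε + t) / (1 + 2 * t))) := by
      rw [hl1, hl2, log_mul (div_pos hx hS0).ne' (div_pos hy hS0).ne']
    have e2 : log ((ε + t) / (1 + 2 * t) * ((1 - ε + t) / (1 + 2 * t)))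
        = log ε + log (1 - ε)
          + log ((ε + t) / (1 + 2 * t) * ((1 - ε + t) / (1 + 2 * t)) / (ε * (1 - ε))) := by
      rw [log_div hP.ne' hprod.ne', log_mul h0.ne' hε1.ne']
      ring
    have e3 : log ((ε + t) / (1 + 2 * t) * ((1 - ε + t) / (1 + 2 * t)) / (ε * (1 - ε)))
        ≤ (ε + t) / (1 + 2 * t) * ((1 - ε + t) / (1 + 2 * t)) / (ε * (1 - ε)) - 1 :=
      log_le_sub_one_of_pos (div_pos hP hprod)
    have e4 : (ε + t) / (1 + 2 * t) * ((1 - ε + t) / (1 + 2 * t)) / (ε * (1 - ε)) - 1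
        ≤ t * (1 - 2 * ε) ^ 2 / (ε * (1 - ε)) := by
      have e5 : (ε + t) / (1 + 2 * t) * ((1 - ε + t) / (1 + 2 * t)) / (ε * (1 - ε)) - 1
          = (t + t ^ 2) * (1 - 2 * ε) ^ 2 / (1 + 2 * t) ^ 2 / (ε * (1 - ε)) := by
        field_simp
        ring
      rw [e5]
      apply div_le_div_of_nonneg_right _ hprod.le
      rw [div_le_iff₀ (by positivity)]
      have : t + t ^ 2 ≤ t * (1 + 2 * t) ^ 2 := by nlinarith [mul_nonneg ht0 ht0, pow_nonneg ht0 3]
      nlinarith [sq_nonneg (1 - 2 * ε)]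
    rw [e1, e2]
    linarith
  -- Hs x y ≥ binEntropy ε - t (l1 + l2)
  have hmain : binEntropy ε - t * (l1 + l2) ≤ Hs (ε + t) (1 - ε + t) := by
    rw [hE]; linarith
  have hk := k_lower h0 h1
  -- c ≤ -(l1 + l2)
  have hc : binEntropy ε / (2 * ε * (1 - ε)) ≤ -(l1 + l2) := by
    rw [div_le_iff₀ (by positivity)]
    have hb := binEntropy_eq_logs ε
    have h2 : -(l1 + l2) * (2 * ε * (1 - ε))
        ≥ -(log ε + log (1 - ε) + t * (1 - 2 * ε) ^ 2 / (ε * (1 - ε))) * (2 * ε * (1 - ε)) := by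
      have : 0 ≤ 2 * ε * (1 - ε) := by positivity
      nlinarith
    have h3 : t * (1 - 2 * ε) ^ 2 / (ε * (1 - ε)) * (2 * ε * (1 - ε)) = 2 * t * (1 - 2 * ε) ^ 2 := by
      field_simp
    have h4 : 2 * t * (1 - 2 * ε) ^ 2 ≤ (1 - 2 * ε) * ((1 - ε) * log (1 - ε) - ε * log ε) := by
      have hρ : 0 ≤ 1 - 2 * ε := by linarith
      have : 2 * t * (1 - 2 * ε) ≤ (1 - ε) * log (1 - ε) - ε * log ε := by nlinarith
      nlinarith
    nlinarith
  have : binEntropy ε / (2 * ε * (1 - ε)) * t ≤ -(l1 + l2) * t :=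
    mul_le_mul_of_nonneg_right hc ht0
  linarith

/-- The key inequality in terms of the four slice counts. -/
lemma key_counts {ε a a' p q : ℝ} (h0 : 0 < ε) (h1 : ε < 1 / 2) (ha : 0 ≤ a) (ha' : 0 ≤ a')
    (hp : 0 ≤ p) (hq : 0 ≤ q) (hD : 0 < a + a') (hs : p + q ≤ 2 * ε / 7 * (a + a')) :
    2 * binEntropy ε * ((a + a' + p + q) - (1 - 2 * ε) ^ 2 * (a + a'))
      ≤ (1 - (1 - 2 * ε) ^ 2) * (Hs (ε * a + (1 - ε) * a' + p) ((1 - ε) * a + ε * a' + p)
          + Hs ((1 - ε) * a + ε * a' + q) (ε * a + (1 - ε) * a' + q)) := by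
  set D := a + a' with hDdef
  have ht1 : p / D ≤ 2 * ε / 7 := by
    rw [div_le_iff₀ hD]; linarith
  have ht2 : q / D ≤ 2 * ε / 7 := by
    rw [div_le_iff₀ hD]; linarith
  have hV1 := V_lower h0 h1 (div_nonneg hp hD.le) ht1
  have hV2 := V_lower h0 h1 (div_nonneg hq hD.le) ht2
  have hε1 : 0 < 1 - ε := by linarith
  -- first term
  have hT1 : D * Hs (ε + p / D) (1 - ε + p / D)
      ≤ Hs (ε * a + (1 - ε) * a' + p) ((1 - ε) * a + ε * a' + p) := by
    have hsup := Hs_superadd (a := a * (ε + p / D)) (b := a * (1 - ε + p / D))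
      (c := a' * (1 - ε + p / D)) (d := a' * (ε + p / D))
      (mul_nonneg ha (by positivity)) (mul_nonneg ha (by positivity))
      (mul_nonneg ha' (by positivity)) (mul_nonneg ha' (by positivity))
    rw [Hs_mul, Hs_mul, Hs_comm (1 - ε + p / D) (ε + p / D)] at hsup
    have e1 : a * (ε + p / D) + a' * (1 - ε + p / D) = ε * a + (1 - ε) * a' + p := by
      have : (a + a') * (p / D) = p := by rw [← hDdef]; field_simp
      linear_combination this
    have e2 : a * (1 - ε + p / D) + a' * (ε + p / D) = (1 - ε) * a + ε * a' + p := by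
      have : (a + a') * (p / D) = p := by rw [← hDdef]; field_simp
      linear_combination this
    rw [e1, e2] at hsup
    have : D * Hs (ε + p / D) (1 - ε + p / D)
        = a * Hs (ε + p / D) (1 - ε + p / D) + a' * Hs (ε + p / D) (1 - ε + p / D) := by
      rw [hDdef]; ring
    linarith
  have hT2 : D * Hs (ε + q / D) (1 - ε + q / D)
      ≤ Hs ((1 - ε) * a + ε * a' + q) (ε * a + (1 - ε) * a' + q) := by
    have hsup := Hs_superadd (a := a * (1 - ε + q / D)) (b := a * (ε + q / D))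
      (c := a' * (ε + q / D)) (d := a' * (1 - ε + q / D))
      (mul_nonneg ha (by positivity)) (mul_nonneg ha (by positivity))
      (mul_nonneg ha' (by positivity)) (mul_nonneg ha' (by positivity))
    rw [Hs_mul, Hs_mul, Hs_comm (1 - ε + q / D) (ε + q / D)] at hsup
    have e1 : a * (1 - ε + q / D) + a' * (ε + q / D) = (1 - ε) * a + ε * a' + q := by
      have : (a + a') * (q / D) = q := by rw [← hDdef]; field_simp
      linear_combination this
    have e2 : a * (ε + q / D) + a' * (1 - ε + q / D) = ε * a + (1 - ε) * a' + q := by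
      have : (a + a') * (q / D) = q := by rw [← hDdef]; field_simp
      linear_combination this
    rw [e1, e2] at hsup
    have : D * Hs (ε + q / D) (1 - ε + q / D)
        = a * Hs (ε + q / D) (1 - ε + q / D) + a' * Hs (ε + q / D) (1 - ε + q / D) := by
      rw [hDdef]; ring
    linarith
  have hW1 := mul_le_mul_of_nonneg_left hV1 hD.le
  have hW2 := mul_le_mul_of_nonneg_left hV2 hD.le
  have hρ : 1 - (1 - 2 * ε) ^ 2 = 4 * ε * (1 - ε) := by ring
  have hρpos : 0 ≤ 1 - (1 - 2 * ε) ^ 2 := by rw [hρ]; positivity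
  have hc : (1 - (1 - 2 * ε) ^ 2) * (binEntropy ε / (2 * ε * (1 - ε))) = 2 * binEntropy ε := by
    rw [hρ]; field_simp; ring
  have e3 : D * (binEntropy ε + binEntropy ε / (2 * ε * (1 - ε)) * (p / D))
      = D * binEntropy ε + binEntropy ε / (2 * ε * (1 - ε)) * p := by
    field_simp
  have e4 : D * (binEntropy ε + binEntropy ε / (2 * ε * (1 - ε)) * (q / D))
      = D * binEntropy ε + binEntropy ε / (2 * ε * (1 - ε)) * q := by
    field_simp
  rw [e3] at hW1
  rw [e4] at hW2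
  have hsumW : 2 * D * binEntropy ε + binEntropy ε / (2 * ε * (1 - ε)) * (p + q)
      ≤ Hs (ε * a + (1 - ε) * a' + p) ((1 - ε) * a + ε * a' + p)
        + Hs ((1 - ε) * a + ε * a' + q) (ε * a + (1 - ε) * a' + q) := by linarith
  have hfin := mul_le_mul_of_nonneg_left hsumW hρpos
  have e5 : (1 - (1 - 2 * ε) ^ 2) * (2 * D * binEntropy ε
      + binEntropy ε / (2 * ε * (1 - ε)) * (p + q))
      = 2 * binEntropy ε * ((D + p + q) - (1 - 2 * ε) ^ 2 * D) := by
    have : (1 - (1 - 2 * ε) ^ 2) * (binEntropy ε / (2 * ε * (1 - ε)) * (p + q))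
        = 2 * binEntropy ε * (p + q) := by rw [← mul_assoc, hc]
    linear_combination this
  rw [e5] at hfin
  exact hfin

end Vale.Agent.H86.CK
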