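import Vale.Agent.H86.CK.Cube
import Vale.Agent.H86.CK.Scalar
import Vale.Agent.H86.CK.Defs

/-!
The Courtade-Kumar inequality for Boolean functions with a highly influential coordinate (P322).
-/

namespace Vale.Agent.H86.CK

open Real

/-- The `0/1` indicator of a Boolean function. -/
noncomputable def ind {n : ℕ} (f : (Fin n → Bool) → Bool) (x : Fin n → Bool) : ℝ :=
  if f x then 1 else 0

lemma ind_nonneg {n : ℕ} (f : (Fin n → Bool) → Bool) (x : Fin n → Bool) : 0 ≤ ind f x := by
  unfold ind; split_ifs <;> norm_num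

lemma ind_le_one {n : ℕ} (f : (Fin n → Bool) → Bool) (x : Fin n → Bool) : ind f x ≤ 1 := by
  unfold ind; split_ifs <;> norm_num

lemma card_cube (n : ℕ) : ∑ _x : Fin n → Bool, (1 : ℝ) = 2 ^ n := by
  simp

lemma jointPmf_true (n : ℕ) (ε : ℝ) (f : (Fin n → Bool) → Bool) (y : Fin n → Bool) :
    jointPmf n ε f (true, y) = (1 / 2 : ℝ) ^ n * noise ε n (ind f) y := by
  unfold jointPmf noise ind ker
  rw [Finset.mul_sum]
  apply Finset.sum_congr rfl
  intro x _
  by_cases h : f x = true <;> simp [h]

lemma one_sub_noise (n : ℕ) (ε : ℝ) (g : (Fin n → Bool) → ℝ) (y : Fin n → Bool) :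
    1 - noise ε n g y = ∑ x, ker ε n x y * (1 - g x) := by
  have h := ker_sum ε n y
  unfold noise
  simp only [mul_sub, mul_one, Finset.sum_sub_distrib]
  rw [h]

lemma jointPmf_false (n : ℕ) (ε : ℝ) (f : (Fin n → Bool) → Bool) (y : Fin n → Bool) :
    jointPmf n ε f (false, y) = (1 / 2 : ℝ) ^ n * (1 - noise ε n (ind f) y) := by
  rw [one_sub_noise]
  unfold jointPmf ind ker
  rw [Finset.mul_sum]
  apply Finset.sum_congr rfl
  intro x _
  by_cases h : f x = true <;> simp [h]

lemma mul_log_div_eq {t s : ℝ} (h : s = 0 → t = 0) :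
    t * log (t / s) = t * log t - t * log s := by
  by_cases ht : t = 0
  · simp [ht]
  · have hs : s ≠ 0 := fun hs => ht (h hs)
    rw [log_div ht hs]; ring

lemma term_formula {c t S : ℝ} (hc : 0 < c) (h : c * S = 0 → t = 0) :
    c * t * logb 2 (c * t / (c * S * c)) * log 2 = c * (t * log t - t * log (c * S)) := by
  have e : c * t / (c * S * c) = t / (c * S) := by
    field_simp
  have h2 : log 2 ≠ 0 := by positivity
  rw [e, ← mul_log_div_eq h, Real.logb, mul_assoc, div_mul_cancel₀ _ h2, mul_assoc]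

/-- The mutual information `I(f(X);Y)` in nats, in terms of the noise operator. -/
lemma mi_formula (n : ℕ) (ε : ℝ) (f : (Fin n → Bool) → Bool) :
    mutualInfoBits (jointPmf n ε f) * log 2
      = (1 / 2 : ℝ) ^ n * (Hs (∑ x, ind f x) (∑ x, (1 - ind f x))
          - ∑ y, binEntropy (noise ε n (ind f) y)) := by
  obtain ⟨c, hc⟩ : ∃ c : ℝ, c = (1 / 2 : ℝ) ^ n := ⟨_, rfl⟩
  have hcpos : 0 < c := by rw [hc]; positivity
  obtain ⟨A, hA⟩ : ∃ A : ℝ, A = ∑ x, ind f x := ⟨_, rfl⟩
  obtain ⟨B, hB⟩ : ∃ B : ℝ, B = ∑ x, (1 - ind f x) := ⟨_, rfl⟩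
  have hAB : A + B = 2 ^ n := by
    rw [hA, hB, ← Finset.sum_add_distrib]
    simp
  have hcAB : c * A + c * B = 1 := by
    rw [← mul_add, hAB, hc, ← mul_pow]
    norm_num
  have hrow_t : ∑ y, jointPmf n ε f (true, y) = c * A := by
    simp only [jointPmf_true]
    rw [← Finset.mul_sum, sum_noise, hc, hA]
  have hrow_f : ∑ y, jointPmf n ε f (false, y) = c * B := by
    simp only [jointPmf_false]
    rw [← Finset.mul_sum, Finset.sum_sub_distrib, sum_noise, hB, Finset.sum_sub_distrib, hc]
  have hcol : ∀ y, ∑ a : Bool, jointPmf n ε f (a, y) = c := by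
    intro y
    rw [Fintype.sum_bool, jointPmf_true, jointPmf_false, hc]
    ring
  have hA0 : A = 0 → ∀ x, ind f x = 0 := by
    intro h x
    rw [hA] at h
    have := (Finset.sum_eq_zero_iff_of_nonneg (fun x _ => ind_nonneg f x)).mp h
    exact this x (Finset.mem_univ x)
  have hB0 : B = 0 → ∀ x, 1 - ind f x = 0 := by
    intro h x
    rw [hB] at h
    have := (Finset.sum_eq_zero_iff_of_nonneg
      (fun x _ => sub_nonneg.mpr (ind_le_one f x))).mp h
    exact this x (Finset.mem_univ x)
  have ht0 : ∀ y, c * A = 0 → noise ε n (ind f) y = 0 := by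
    intro y h
    have hA' : A = 0 := by
      rcases mul_eq_zero.mp h with h | h
      · exact absurd h hcpos.ne'
      · exact h
    unfold noise
    apply Finset.sum_eq_zero
    intro x _
    rw [hA0 hA' x, mul_zero]
  have ht1 : ∀ y, c * B = 0 → 1 - noise ε n (ind f) y = 0 := by
    intro y h
    have hB' : B = 0 := by
      rcases mul_eq_zero.mp h with h | h
      · exact absurd h hcpos.ne'
      · exact h
    rw [one_sub_noise]
    apply Finset.sum_eq_zero
    intro x _
    rw [hB0 hB' x, mul_zero]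
  -- each term
  have hterm_t : ∀ y, jointPmf n ε f (true, y)
      * logb 2 (jointPmf n ε f (true, y)
        / ((∑ b', jointPmf n ε f (true, b')) * (∑ a', jointPmf n ε f (a', y)))) * log 2
      = c * (noise ε n (ind f) y * log (noise ε n (ind f) y)
          - noise ε n (ind f) y * log (c * A)) := by
    intro y
    rw [hrow_t, hcol, jointPmf_true, ← hc]
    exact term_formula hcpos (ht0 y)
  have hterm_f : ∀ y, jointPmf n ε f (false, y)
      * logb 2 (jointPmf n ε f (false, y)
        / ((∑ b', jointPmf n ε f (false, b')) * (∑ a', jointPmf n ε f (a', y)))) * log 2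
      = c * ((1 - noise ε n (ind f) y) * log (1 - noise ε n (ind f) y)
          - (1 - noise ε n (ind f) y) * log (c * B)) := by
    intro y
    rw [hrow_f, hcol, jointPmf_false, ← hc]
    exact term_formula hcpos (ht1 y)
  unfold mutualInfoBits
  rw [Fintype.sum_bool, add_mul, Finset.sum_mul, Finset.sum_mul]
  simp only [hterm_t, hterm_f]
  rw [← Finset.mul_sum, ← Finset.mul_sum, ← mul_add, ← Finset.sum_add_distrib]
  -- sum over y
  have hsum : ∑ y, (noise ε n (ind f) y * log (noise ε n (ind f) y)
        - noise ε n (ind f) y * log (c * A)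
        + ((1 - noise ε n (ind f) y) * log (1 - noise ε n (ind f) y)
          - (1 - noise ε n (ind f) y) * log (c * B)))
      = -(∑ y, binEntropy (noise ε n (ind f) y)) - A * log (c * A) - B * log (c * B) := by
    have hsA : ∑ y, noise ε n (ind f) y = A := by rw [hA]; exact sum_noise ε n (ind f)
    have hsB : ∑ y, (1 - noise ε n (ind f) y) = B := by
      rw [Finset.sum_sub_distrib, hsA, hB, Finset.sum_sub_distrib, ← hA]
    rw [← hsA, ← hsB, Finset.sum_mul, Finset.sum_mul, ← Finset.sum_neg_distrib,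
      ← Finset.sum_sub_distrib, ← Finset.sum_sub_distrib]
    apply Finset.sum_congr rfl
    intro y _
    rw [binEntropy_eq_logs]
    ring
  rw [hsum]
  -- the entropy of the marginal
  have hHs : c * Hs A B = -(c * A * log (c * A)) - c * B * log (c * B) := by
    rw [← Hs_mul]
    unfold Hs
    rw [hcAB]
    simp only [negMulLog_one, sub_zero]
    unfold negMulLog
    ring
  rw [← hc, ← hA, ← hB]
  have : c * (Hs A B - ∑ y, binEntropy (noise ε n (ind f) y))
      = c * Hs A B - c * ∑ y, binEntropy (noise ε n (ind f) y) := by ring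
  rw [this, hHs]
  ring

end Vale.Agent.H86.CK
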