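import Vale.Agent.H86.CK.MI

/-!
The Courtade-Kumar inequality for Boolean functions with a highly influential coordinate (P322).
-/

namespace Vale.Agent.H86.CK

open Real

/-- Linear bookkeeping for the main inequality. -/
lemma main_scalar_aux {r Z X1 X2 Y1 Y2 St Sf N D H L : ℝ} (hr0 : 0 ≤ r)
    (hfour : Z = 2 * N * L + X1 + X2 - Y1 - Y2)
    (hZle : Z ≤ 2 * N * L)
    (sdt : r * (D * H) + (1 - r) * X1 ≤ St)
    (sdf : r * (D * H) + (1 - r) * X2 ≤ Sf)
    (hkey : 2 * H * (N - r * D) ≤ (1 - r) * (Y1 + Y2)) :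
    Z - (St + Sf) ≤ 2 * N * (L - H) := by
  have m1 := mul_le_mul_of_nonneg_left hZle hr0
  have m2 : (1 - r) * Z = (1 - r) * (2 * N * L + X1 + X2 - Y1 - Y2) := by rw [hfour]
  nlinarith [m1, m2, hkey, sdt, sdf]

/-- The scalar core of the main inequality: `a, a'` count the pairs on which the function depends
on the distinguished coordinate (in the two possible ways), `p, q` the pairs on which it is
constantly `1`, resp. `0`. -/
lemma main_scalar {ε a a' p q N St Sf : ℝ} (h0 : 0 < ε) (h1 : ε < 1 / 2)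
    (ha : 0 ≤ a) (ha' : 0 ≤ a') (hp : 0 ≤ p) (hq : 0 ≤ q) (hN : N = a + a' + p + q)
    (hNpos : 0 < N) (hD : (1 - ε / 4) * N ≤ a + a')
    (sdt : (1 - 2 * ε) ^ 2 * ((a + a') * binEntropy ε)
      + (1 - (1 - 2 * ε) ^ 2) * Hs ((1 - ε) * a + ε * a' + p) (ε * a + (1 - ε) * a' + q) ≤ St)
    (sdf : (1 - 2 * ε) ^ 2 * ((a + a') * binEntropy ε)
      + (1 - (1 - 2 * ε) ^ 2) * Hs (ε * a + (1 - ε) * a' + p) ((1 - ε) * a + ε * a' + q) ≤ Sf) :
    Hs ((1 - ε) * a + ε * a' + p + (ε * a + (1 - ε) * a' + p))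
        (2 * N - ((1 - ε) * a + ε * a' + p) - (ε * a + (1 - ε) * a' + p)) - (St + Sf)
      ≤ 2 * N * (log 2 - binEntropy ε) := by
  have hρ0 : 0 ≤ (1 - 2 * ε) ^ 2 := sq_nonneg _
  have hfour := Hs_four ((1 - ε) * a + ε * a' + p) (ε * a + (1 - ε) * a' + p) N
  have e1 : N - ((1 - ε) * a + ε * a' + p) = ε * a + (1 - ε) * a' + q := by rw [hN]; ring
  have e2 : N - (ε * a + (1 - ε) * a' + p) = (1 - ε) * a + ε * a' + q := by rw [hN]; ring
  rw [e1, e2] at hfour
  have hZle : Hs ((1 - ε) * a + ε * a' + p + (ε * a + (1 - ε) * a' + p))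
      (2 * N - ((1 - ε) * a + ε * a' + p) - (ε * a + (1 - ε) * a' + p)) ≤ 2 * N * log 2 := by
    have hnn1 : 0 ≤ (1 - ε) * a + ε * a' + p + (ε * a + (1 - ε) * a' + p) := by nlinarith
    have hnn2 : 0 ≤ 2 * N - ((1 - ε) * a + ε * a' + p) - (ε * a + (1 - ε) * a' + p) := by
      rw [hN]; nlinarith
    have := Hs_le_log_two hnn1 hnn2
    have e : (1 - ε) * a + ε * a' + p + (ε * a + (1 - ε) * a' + p)
        + (2 * N - ((1 - ε) * a + ε * a' + p) - (ε * a + (1 - ε) * a' + p)) = 2 * N := by ring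
    rw [e] at this
    exact this
  have hDpos : 0 < a + a' := by
    have : 0 < (1 - ε / 4) * N := mul_pos (by linarith) hNpos
    linarith
  have hs : p + q ≤ 2 * ε / 7 * (a + a') := by
    rw [hN] at hD
    have h3 : 0 < 1 - ε / 4 := by linarith
    have h4 : (1 - ε / 4) * (p + q) ≤ (1 - ε / 4) * (2 * ε / 7 * (a + a')) := by
      nlinarith
    exact le_of_mul_le_mul_left h4 h3
  have hkey := key_counts h0 h1 ha ha' hp hq hDpos hs
  rw [← hN, Hs_comm (ε * a + (1 - ε) * a' + p) ((1 - ε) * a + ε * a' + p),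
    Hs_comm ((1 - ε) * a + ε * a' + q) (ε * a + (1 - ε) * a' + q)] at hkey
  exact main_scalar_aux hρ0 hfour hZle sdt sdf hkey

lemma binEntropy_mix_ne {ε : ℝ} (b c : Bool) :
    binEntropy ((1 - ε) * (if b then (1 : ℝ) else 0) + ε * (if c then (1 : ℝ) else 0))
      = ((if b then (1 : ℝ) else 0) * (1 - (if c then (1 : ℝ) else 0))
          + (1 - (if b then (1 : ℝ) else 0)) * (if c then (1 : ℝ) else 0)) * binEntropy ε := by
  cases b <;> cases c <;> simp

lemma ne_indicator (b c : Bool) :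
    (if b ≠ c then (1 : ℝ) else 0)
      = (if b then (1 : ℝ) else 0) * (1 - (if c then (1 : ℝ) else 0))
          + (1 - (if b then (1 : ℝ) else 0)) * (if c then (1 : ℝ) else 0) := by
  cases b <;> cases c <;> simp

/-- The main inequality, in nats and unnormalised, for a coordinate `i` of a function on
`n + 1` bits. -/
theorem main_nat {ε : ℝ} (h0 : 0 < ε) (h1 : ε < 1 / 2) {n : ℕ} (i : Fin (n + 1))
    (f : (Fin (n + 1) → Bool) → Bool)
    (hD : (1 - ε / 4) * (2 : ℝ) ^ n
      ≤ ∑ x' : Fin n → Bool,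
          (if f (i.insertNth true x') ≠ f (i.insertNth false x') then (1 : ℝ) else 0)) :
    Hs (∑ x, ind f x) (∑ x, (1 - ind f x)) - ∑ y, binEntropy (noise ε (n + 1) (ind f) y)
      ≤ 2 * (2 : ℝ) ^ n * (log 2 - binEntropy ε) := by
  have hε1 : ε ≤ 1 / 2 := h1.le
  obtain ⟨gt, hgt⟩ : ∃ gt : (Fin n → Bool) → ℝ, gt = fun x' => ind f (i.insertNth true x') :=
    ⟨_, rfl⟩
  obtain ⟨gf, hgf⟩ : ∃ gf : (Fin n → Bool) → ℝ, gf = fun x' => ind f (i.insertNth false x') :=
    ⟨_, rfl⟩
  have hgt0 : ∀ x, 0 ≤ gt x := fun x => by rw [hgt]; exact ind_nonneg f _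
  have hgt1 : ∀ x, gt x ≤ 1 := fun x => by rw [hgt]; exact ind_le_one f _
  have hgf0 : ∀ x, 0 ≤ gf x := fun x => by rw [hgf]; exact ind_nonneg f _
  have hgf1 : ∀ x, gf x ≤ 1 := fun x => by rw [hgf]; exact ind_le_one f _
  have hGt : ∀ x, 0 ≤ (1 - ε) * gt x + ε * gf x ∧ (1 - ε) * gt x + ε * gf x ≤ 1 := by
    intro x
    have := hgt0 x; have := hgt1 x; have := hgf0 x; have := hgf1 x
    constructor <;> nlinarith
  have hGf : ∀ x, 0 ≤ (1 - ε) * gf x + ε * gt x ∧ (1 - ε) * gf x + ε * gt x ≤ 1 := by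
    intro x
    have := hgt0 x; have := hgt1 x; have := hgf0 x; have := hgf1 x
    constructor <;> nlinarith
  have sdt := sdpi h0.le hε1 n (fun x => (1 - ε) * gt x + ε * gf x) hGt
  have sdf := sdpi h0.le hε1 n (fun x => (1 - ε) * gf x + ε * gt x) hGf
  have hR : ∑ y, binEntropy (noise ε (n + 1) (ind f) y)
      = ∑ y', binEntropy (noise ε n (fun x => (1 - ε) * gt x + ε * gf x) y')
        + ∑ y', binEntropy (noise ε n (fun x => (1 - ε) * gf x + ε * gt x) y') := by
    rw [sum_insertNth i, Fintype.sum_bool]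
    simp only [noise_insertNth]
    rw [hgt, hgf]
    rfl
  -- the four counts
  obtain ⟨a, ha⟩ : ∃ a : ℝ, a = ∑ x', gt x' * (1 - gf x') := ⟨_, rfl⟩
  obtain ⟨a', ha'⟩ : ∃ a' : ℝ, a' = ∑ x', (1 - gt x') * gf x' := ⟨_, rfl⟩
  obtain ⟨p, hp⟩ : ∃ p : ℝ, p = ∑ x', gt x' * gf x' := ⟨_, rfl⟩
  obtain ⟨q, hq⟩ : ∃ q : ℝ, q = ∑ x', (1 - gt x') * (1 - gf x') := ⟨_, rfl⟩
  have ha0 : 0 ≤ a := by
    rw [ha]
    exact Finset.sum_nonneg fun x _ => mul_nonneg (hgt0 x) (by linarith [hgf1 x])
  have ha'0 : 0 ≤ a' := by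
    rw [ha']
    exact Finset.sum_nonneg fun x _ => mul_nonneg (by linarith [hgt1 x]) (hgf0 x)
  have hp0 : 0 ≤ p := by
    rw [hp]
    exact Finset.sum_nonneg fun x _ => mul_nonneg (hgt0 x) (hgf0 x)
  have hq0 : 0 ≤ q := by
    rw [hq]
    exact Finset.sum_nonneg fun x _ => mul_nonneg (by linarith [hgt1 x]) (by linarith [hgf1 x])
  have hN : (2 : ℝ) ^ n = a + a' + p + q := by
    rw [← card_cube n, ha, ha', hp, hq, ← Finset.sum_add_distrib, ← Finset.sum_add_distrib,
      ← Finset.sum_add_distrib]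
    apply Finset.sum_congr rfl
    intro x _
    ring
  have hDsum : ∑ x' : Fin n → Bool,
      (if f (i.insertNth true x') ≠ f (i.insertNth false x') then (1 : ℝ) else 0) = a + a' := by
    rw [ha, ha', ← Finset.sum_add_distrib]
    apply Finset.sum_congr rfl
    intro x _
    rw [hgt, hgf]
    exact ne_indicator _ _
  have hSGt : ∑ x', binEntropy ((1 - ε) * gt x' + ε * gf x') = (a + a') * binEntropy ε := by
    rw [ha, ha', ← Finset.sum_add_distrib, Finset.sum_mul]
    apply Finset.sum_congr rfl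
    intro x _
    rw [hgt, hgf]
    exact binEntropy_mix_ne _ _
  have hSGf : ∑ x', binEntropy ((1 - ε) * gf x' + ε * gt x') = (a + a') * binEntropy ε := by
    rw [ha, ha', ← Finset.sum_add_distrib, Finset.sum_mul]
    apply Finset.sum_congr rfl
    intro x _
    rw [hgt, hgf]
    have := binEntropy_mix_ne (ε := ε) (f (i.insertNth false x)) (f (i.insertNth true x))
    simp only [ind]
    rw [this]
    ring
  have hQt : ∑ x', ((1 - ε) * gt x' + ε * gf x') = (1 - ε) * a + ε * a' + p := by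
    rw [ha, ha', hp, Finset.mul_sum, Finset.mul_sum, ← Finset.sum_add_distrib,
      ← Finset.sum_add_distrib]
    apply Finset.sum_congr rfl
    intro x _
    ring
  have hQt' : ∑ x', (1 - ((1 - ε) * gt x' + ε * gf x')) = ε * a + (1 - ε) * a' + q := by
    rw [ha, ha', hq, Finset.mul_sum, Finset.mul_sum, ← Finset.sum_add_distrib,
      ← Finset.sum_add_distrib]
    apply Finset.sum_congr rfl
    intro x _
    ring
  have hQf : ∑ x', ((1 - ε) * gf x' + ε * gt x') = ε * a + (1 - ε) * a' + p := by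
    rw [ha, ha', hp, Finset.mul_sum, Finset.mul_sum, ← Finset.sum_add_distrib,
      ← Finset.sum_add_distrib]
    apply Finset.sum_congr rfl
    intro x _
    ring
  have hQf' : ∑ x', (1 - ((1 - ε) * gf x' + ε * gt x')) = (1 - ε) * a + ε * a' + q := by
    rw [ha, ha', hq, Finset.mul_sum, Finset.mul_sum, ← Finset.sum_add_distrib,
      ← Finset.sum_add_distrib]
    apply Finset.sum_congr rfl
    intro x _
    ring
  rw [hSGt, hQt, hQt'] at sdt
  rw [hSGf, hQf, hQf'] at sdf
  have hZa : ∑ x, ind f x = ((1 - ε) * a + ε * a' + p) + (ε * a + (1 - ε) * a' + p) := by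
    rw [sum_insertNth i, Fintype.sum_bool, ← hQt, ← hQf, ← Finset.sum_add_distrib,
      ← Finset.sum_add_distrib]
    apply Finset.sum_congr rfl
    intro x _
    rw [hgt, hgf]
    ring
  have hZb : ∑ x, (1 - ind f x)
      = 2 * (2 : ℝ) ^ n - ((1 - ε) * a + ε * a' + p) - (ε * a + (1 - ε) * a' + p) := by
    rw [Finset.sum_sub_distrib, hZa, card_cube]
    ring
  rw [hR, hZa, hZb]
  rw [hDsum] at hD
  exact main_scalar h0 h1 ha0 ha'0 hp0 hq0 hN (by positivity) hD sdt sdf

/-- The influence of coordinate `i` of a function on `n + 1` bits, as a count of pairs. -/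
lemma influence_eq {n : ℕ} (f : (Fin (n + 1) → Bool) → Bool) (i : Fin (n + 1)) :
    influence (n + 1) f i
      = (∑ x' : Fin n → Bool,
          (if f (i.insertNth true x') ≠ f (i.insertNth false x') then (1 : ℝ) else 0)) / 2 ^ n := by
  unfold influence
  rw [← Finset.sum_boole, sum_insertNth i, Fintype.sum_bool]
  simp only [Fin.insertNth_apply_same, Fin.update_insertNth, Bool.not_true, Bool.not_false]
  have e : ∀ x' : Fin n → Bool,
      (if f (i.insertNth false x') ≠ f (i.insertNth true x') then (1 : ℝ) else 0)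
        = (if f (i.insertNth true x') ≠ f (i.insertNth false x') then (1 : ℝ) else 0) := by
    intro x'
    simp only [ne_comm]
  simp only [e]
  rw [pow_succ]
  have h2 : (2 : ℝ) ^ n ≠ 0 := by positivity
  field_simp
  ring

/-- **Courtade-Kumar inequality for functions with a highly influential coordinate.**
If some coordinate `i` of `f : {0,1}^n → {0,1}` has influence at least `1 - ε/4`, then
`I(f(X);Y) ≤ 1 - h₂(ε)`, where `Y` is the output of the binary symmetric channel with crossover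
probability `ε ∈ (0, 1/2)` on the uniform input `X`. -/
theorem ck_influence (n : ℕ) (f : (Fin n → Bool) → Bool) (ε : ℝ) (h0 : 0 < ε) (h1 : ε < 1 / 2)
    (i : Fin n) (hI : 1 - ε / 4 ≤ influence n f i) :
    mutualInfoBits (jointPmf n ε f)
      ≤ 1 + ε * Real.logb 2 ε + (1 - ε) * Real.logb 2 (1 - ε) := by
  cases n with
  | zero => exact i.elim0
  | succ m =>
    rw [influence_eq] at hI
    have h2m : (0 : ℝ) < 2 ^ m := by positivity
    have hD : (1 - ε / 4) * (2 : ℝ) ^ m
        ≤ ∑ x' : Fin m → Bool,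
          (if f (i.insertNth true x') ≠ f (i.insertNth false x') then (1 : ℝ) else 0) :=
      (le_div_iff₀ h2m).mp hI
    have hmain := main_nat h0 h1 i f hD
    have hmi := mi_formula (m + 1) ε f
    have hlog2 : 0 < log 2 := by positivity
    have hc : (1 / 2 : ℝ) ^ (m + 1) * (2 * (2 : ℝ) ^ m) = 1 := by
      rw [pow_succ, one_div, inv_pow]
      field_simp
    have hle : mutualInfoBits (jointPmf (m + 1) ε f) * log 2 ≤ log 2 - binEntropy ε := by
      rw [hmi]
      have hcpos : (0 : ℝ) ≤ (1 / 2 : ℝ) ^ (m + 1) := by positivity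
      have := mul_le_mul_of_nonneg_left hmain hcpos
      calc (1 / 2 : ℝ) ^ (m + 1) * (Hs (∑ x, ind f x) (∑ x, (1 - ind f x))
              - ∑ y, binEntropy (noise ε (m + 1) (ind f) y))
          ≤ (1 / 2 : ℝ) ^ (m + 1) * (2 * (2 : ℝ) ^ m * (log 2 - binEntropy ε)) := this
        _ = ((1 / 2 : ℝ) ^ (m + 1) * (2 * (2 : ℝ) ^ m)) * (log 2 - binEntropy ε) := by ring
        _ = log 2 - binEntropy ε := by rw [hc, one_mul]
    have hrhs : 1 + ε * Real.logb 2 ε + (1 - ε) * Real.logb 2 (1 - ε)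
        = (log 2 - binEntropy ε) / log 2 := by
      rw [binEntropy_eq_logs]
      unfold Real.logb
      field_simp
      ring
    rw [hrhs, le_div_iff₀ hlog2]
    exact hle

end Vale.Agent.H86.CK
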