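import Vale.Agent.H86.CK.Convex
import Vale.Agent.H86.CK.Main

/-!
The Courtade-Kumar inequality for Boolean functions with an influential coordinate (P322):
the sharper threshold `1 - Inf_i ≤ 2 √(ε (1 - ε)) Inf_i`.
-/

namespace Vale.Agent.H86.CK

open Real

/-- The two-variable core inequality. -/
lemma core2 {ε t₁ t₂ : ℝ} (h0 : 0 < ε) (h1 : ε < 1 / 2) (ht₁ : 0 ≤ t₁) (ht₂ : 0 ≤ t₂)
    (hsum : t₁ + t₂ ≤ 2 * √(ε * (1 - ε))) :
    2 * binEntropy ε * (1 + t₁ + t₂ - (1 - 2 * ε) ^ 2)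
      ≤ (1 - (1 - 2 * ε) ^ 2) * (Hs (ε + t₁) (1 - ε + t₁) + Hs (ε + t₂) (1 - ε + t₂))
        + (1 - 2 * ε) ^ 2 * (2 * (1 + t₁ + t₂) * log 2 - Hs (1 + 2 * t₁) (1 + 2 * t₂)) := by
  obtain ⟨m, hm⟩ : ∃ m : ℝ, m = (t₁ + t₂) / 2 := ⟨_, rfl⟩
  have hm0 : 0 ≤ m := by rw [hm]; linarith
  have hm1 : m ≤ √(ε * (1 - ε)) := by rw [hm]; linarith
  have hV := V_lower' h0 h1 hm0 hm1
  have hconv := auxXi_midpoint h0 h1 ht₁ ht₂
  rw [← hm] at hconv
  have hXi : ∀ t : ℝ, auxXi ε t = (1 - (1 - 2 * ε) ^ 2) * Hs (ε + t) (1 - ε + t)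
      + (1 - 2 * ε) ^ 2 * ((1 + 2 * t) * log (1 + 2 * t)) := by
    intro t
    unfold auxXi Hs negMulLog
    have e : ε + t + (1 - ε + t) = 1 + 2 * t := by ring
    rw [e]
    ring
  have hB : 2 * (1 + t₁ + t₂) * log 2 - Hs (1 + 2 * t₁) (1 + 2 * t₂)
      = (1 + 2 * t₁) * log (1 + 2 * t₁) + (1 + 2 * t₂) * log (1 + 2 * t₂)
        - 2 * ((1 + 2 * m) * log (1 + 2 * m)) := by
    unfold Hs negMulLog
    have e : 1 + 2 * t₁ + (1 + 2 * t₂) = 2 * (1 + 2 * m) := by rw [hm]; ring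
    rw [e, log_mul (by norm_num) (by positivity)]
    rw [hm]
    ring
  rw [hB]
  have h3 := hXi t₁
  have h4 := hXi t₂
  have h5 := hXi m
  have hρ : 1 - (1 - 2 * ε) ^ 2 = 4 * ε * (1 - ε) := by ring
  have hε1 : 0 < 1 - ε := by linarith
  have hρpos : 0 ≤ 1 - (1 - 2 * ε) ^ 2 := by rw [hρ]; positivity
  have h6 := mul_le_mul_of_nonneg_left hV hρpos
  have h7 : (1 - (1 - 2 * ε) ^ 2) * (binEntropy ε + binEntropy ε / (2 * ε * (1 - ε)) * m)
      = binEntropy ε * (1 - (1 - 2 * ε) ^ 2) + 2 * binEntropy ε * m := by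
    rw [hρ]
    field_simp
    ring
  rw [h7] at h6
  have hHm : binEntropy ε * (t₁ + t₂) = binEntropy ε * (2 * m) := by rw [hm]; ring
  linarith [h3, h4, h5, h6, hconv, hHm]

/-- Superadditivity step reducing the general slice to the one-sided slice. -/
lemma tilt_superadd {ε a a' p : ℝ} (h0 : 0 < ε) (h1 : ε < 1 / 2) (ha : 0 ≤ a) (ha' : 0 ≤ a')
    (hp : 0 ≤ p) (hD : 0 < a + a') :
    (a + a') * Hs (ε + p / (a + a')) (1 - ε + p / (a + a'))
      ≤ Hs (ε * a + (1 - ε) * a' + p) ((1 - ε) * a + ε * a' + p) := by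
  obtain ⟨D, hDdef⟩ : ∃ D : ℝ, D = a + a' := ⟨_, rfl⟩
  rw [← hDdef] at hD ⊢
  have hε1 : 0 < 1 - ε := by linarith
  have hsup := Hs_superadd (a := a * (ε + p / D)) (b := a * (1 - ε + p / D))
    (c := a' * (1 - ε + p / D)) (d := a' * (ε + p / D))
    (mul_nonneg ha (by positivity)) (mul_nonneg ha (by positivity))
    (mul_nonneg ha' (by positivity)) (mul_nonneg ha' (by positivity))
  rw [Hs_mul, Hs_mul, Hs_comm (1 - ε + p / D) (ε + p / D)] at hsup
  have hpd : (a + a') * (p / D) = p := by rw [← hDdef]; field_simp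
  have e1 : a * (ε + p / D) + a' * (1 - ε + p / D) = ε * a + (1 - ε) * a' + p := by
    linear_combination hpd
  have e2 : a * (1 - ε + p / D) + a' * (ε + p / D) = (1 - ε) * a + ε * a' + p := by
    linear_combination hpd
  rw [e1, e2] at hsup
  have : D * Hs (ε + p / D) (1 - ε + p / D)
      = a * Hs (ε + p / D) (1 - ε + p / D) + a' * Hs (ε + p / D) (1 - ε + p / D) := by
    rw [hDdef]; ring
  linarith

/-- The key inequality in terms of the four slice counts, with the sharper threshold. -/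
lemma key_counts2 {ε a a' p q : ℝ} (h0 : 0 < ε) (h1 : ε < 1 / 2) (ha : 0 ≤ a) (ha' : 0 ≤ a')
    (hp : 0 ≤ p) (hq : 0 ≤ q) (hD : 0 < a + a')
    (hs : p + q ≤ 2 * √(ε * (1 - ε)) * (a + a')) :
    2 * binEntropy ε * ((a + a' + p + q) - (1 - 2 * ε) ^ 2 * (a + a'))
      ≤ (1 - (1 - 2 * ε) ^ 2) * (Hs (ε * a + (1 - ε) * a' + p) ((1 - ε) * a + ε * a' + p)
          + Hs ((1 - ε) * a + ε * a' + q) (ε * a + (1 - ε) * a' + q))
        + (1 - 2 * ε) ^ 2
          * (2 * (a + a' + p + q) * log 2 - Hs (a + a' + 2 * p) (a + a' + 2 * q)) := by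
  have hT1 := tilt_superadd h0 h1 ha ha' hp hD
  have hT2 := tilt_superadd h0 h1 ha ha' hq hD
  rw [Hs_comm (ε * a + (1 - ε) * a' + q) ((1 - ε) * a + ε * a' + q)] at hT2
  obtain ⟨D, hDdef⟩ : ∃ D : ℝ, D = a + a' := ⟨_, rfl⟩
  rw [← hDdef] at hD hT1 hT2 hs ⊢
  have ht1 : 0 ≤ p / D := by positivity
  have ht2 : 0 ≤ q / D := by positivity
  have hsum : p / D + q / D ≤ 2 * √(ε * (1 - ε)) := by
    rw [← add_div, div_le_iff₀ hD]
    exact hs
  have hcore := core2 h0 h1 ht1 ht2 hsum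
  have hρ : 1 - (1 - 2 * ε) ^ 2 = 4 * ε * (1 - ε) := by ring
  have hε1 : 0 < 1 - ε := by linarith
  have hρpos : 0 ≤ 1 - (1 - 2 * ε) ^ 2 := by rw [hρ]; positivity
  have hpd : D * (p / D) = p := by field_simp
  have hqd : D * (q / D) = q := by field_simp
  have hZ : D * Hs (1 + 2 * (p / D)) (1 + 2 * (q / D)) = Hs (D + 2 * p) (D + 2 * q) := by
    rw [← Hs_mul]
    have e1 : D * (1 + 2 * (p / D)) = D + 2 * p := by linear_combination 2 * hpd
    have e2 : D * (1 + 2 * (q / D)) = D + 2 * q := by linear_combination 2 * hqd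
    rw [e1, e2]
  have hmul := mul_le_mul_of_nonneg_left hcore hD.le
  have eL : D * (2 * binEntropy ε * (1 + p / D + q / D - (1 - 2 * ε) ^ 2))
      = 2 * binEntropy ε * (D + p + q - (1 - 2 * ε) ^ 2 * D) := by
    linear_combination (2 * binEntropy ε) * hpd + (2 * binEntropy ε) * hqd
  have eR : D * ((1 - (1 - 2 * ε) ^ 2)
        * (Hs (ε + p / D) (1 - ε + p / D) + Hs (ε + q / D) (1 - ε + q / D))
        + (1 - 2 * ε) ^ 2 * (2 * (1 + p / D + q / D) * log 2
            - Hs (1 + 2 * (p / D)) (1 + 2 * (q / D))))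
      = (1 - (1 - 2 * ε) ^ 2)
          * (D * Hs (ε + p / D) (1 - ε + p / D) + D * Hs (ε + q / D) (1 - ε + q / D))
        + (1 - 2 * ε) ^ 2 * (2 * (D + p + q) * log 2 - Hs (D + 2 * p) (D + 2 * q)) := by
    rw [← hZ]
    linear_combination ((1 - 2 * ε) ^ 2 * (2 * log 2)) * hpd
      + ((1 - 2 * ε) ^ 2 * (2 * log 2)) * hqd
  rw [eL, eR] at hmul
  have hT := mul_le_mul_of_nonneg_left (add_le_add hT1 hT2) hρpos
  linarith

/-- Linear bookkeeping for the main inequality (second version, keeping the marginal entropy). -/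
lemma main_scalar_aux2 {r Z X1 X2 Y1 Y2 St Sf N D H L : ℝ}
    (hfour : Z = 2 * N * L + X1 + X2 - Y1 - Y2)
    (sdt : r * (D * H) + (1 - r) * X1 ≤ St)
    (sdf : r * (D * H) + (1 - r) * X2 ≤ Sf)
    (hkey : 2 * H * (N - r * D) ≤ (1 - r) * (Y1 + Y2) + r * (2 * N * L - Z)) :
    Z - (St + Sf) ≤ 2 * N * (L - H) := by
  have m2 : (1 - r) * Z = (1 - r) * (2 * N * L + X1 + X2 - Y1 - Y2) := by rw [hfour]
  nlinarith [m2, hkey, sdt, sdf]

/-- The scalar core of the main inequality with the sharper threshold. -/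
lemma main_scalar2 {ε a a' p q N St Sf : ℝ} (h0 : 0 < ε) (h1 : ε < 1 / 2)
    (ha : 0 ≤ a) (ha' : 0 ≤ a') (hp : 0 ≤ p) (hq : 0 ≤ q) (hN : N = a + a' + p + q)
    (hD : 0 < a + a') (hs : p + q ≤ 2 * √(ε * (1 - ε)) * (a + a'))
    (sdt : (1 - 2 * ε) ^ 2 * ((a + a') * binEntropy ε)
      + (1 - (1 - 2 * ε) ^ 2) * Hs ((1 - ε) * a + ε * a' + p) (ε * a + (1 - ε) * a' + q) ≤ St)
    (sdf : (1 - 2 * ε) ^ 2 * ((a + a') * binEntropy ε)
      + (1 - (1 - 2 * ε) ^ 2) * Hs (ε * a + (1 - ε) * a' + p) ((1 - ε) * a + ε * a' + q) ≤ Sf) :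
    Hs ((1 - ε) * a + ε * a' + p + (ε * a + (1 - ε) * a' + p))
        (2 * N - ((1 - ε) * a + ε * a' + p) - (ε * a + (1 - ε) * a' + p)) - (St + Sf)
      ≤ 2 * N * (log 2 - binEntropy ε) := by
  have hfour := Hs_four ((1 - ε) * a + ε * a' + p) (ε * a + (1 - ε) * a' + p) N
  have e1 : N - ((1 - ε) * a + ε * a' + p) = ε * a + (1 - ε) * a' + q := by rw [hN]; ring
  have e2 : N - (ε * a + (1 - ε) * a' + p) = (1 - ε) * a + ε * a' + q := by rw [hN]; ring
  rw [e1, e2] at hfour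
  have hkey := key_counts2 h0 h1 ha ha' hp hq hD hs
  have eZ1 : a + a' + 2 * p = (1 - ε) * a + ε * a' + p + (ε * a + (1 - ε) * a' + p) := by ring
  have eZ2 : a + a' + 2 * q
      = 2 * N - ((1 - ε) * a + ε * a' + p) - (ε * a + (1 - ε) * a' + p) := by rw [hN]; ring
  rw [eZ1, eZ2, ← hN, Hs_comm (ε * a + (1 - ε) * a' + p) ((1 - ε) * a + ε * a' + p),
    Hs_comm ((1 - ε) * a + ε * a' + q) (ε * a + (1 - ε) * a' + q)] at hkey
  exact main_scalar_aux2 hfour sdt sdf hkey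

/-- The main inequality, in nats and unnormalised, for a coordinate `i` of a function on
`n + 1` bits. -/
theorem main_nat2 {ε : ℝ} (h0 : 0 < ε) (h1 : ε < 1 / 2) {n : ℕ} (i : Fin (n + 1))
    (f : (Fin (n + 1) → Bool) → Bool)
    (hD : (2 : ℝ) ^ n - ∑ x' : Fin n → Bool,
          (if f (i.insertNth true x') ≠ f (i.insertNth false x') then (1 : ℝ) else 0)
      ≤ 2 * √(ε * (1 - ε)) * ∑ x' : Fin n → Bool,
          (if f (i.insertNth true x') ≠ f (i.insertNth false x') then (1 : ℝ) else 0)) :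
    Hs (∑ x, ind f x) (∑ x, (1 - ind f x)) - ∑ y, binEntropy (noise ε (n + 1) (ind f) y)
      ≤ 2 * (2 : ℝ) ^ n * (log 2 - binEntropy ε) := by
  have hε1 : ε ≤ 1 / 2 := h1.le
  obtain ⟨gt, hgt⟩ : ∃ gt : (Fin n → Bool) → ℝ, gt = fun x' => ind f (i.insertNth true x') :=
    ⟨_, rfl⟩
  obtain ⟨gf, hgf⟩ : ∃ gf : (Fin n → Bool) → ℝ, gf = fun x' => ind f (i.insertNth false x') :=
    ⟨_, rfl⟩
  have hgt0 : ∀ x, 0 ≤ gt x := fun x => by rw [hgt]; exact ind_nonneg f _
  have hgt1 : ∀ x, gt x ≤ 1 := fun x => by rw [hgt]; exact ind_le_one f _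
  have hgf0 : ∀ x, 0 ≤ gf x := fun x => by rw [hgf]; exact ind_nonneg f _
  have hgf1 : ∀ x, gf x ≤ 1 := fun x => by rw [hgf]; exact ind_le_one f _
  have hGt : ∀ x, 0 ≤ (1 - ε) * gt x + ε * gf x ∧ (1 - ε) * gt x + ε * gf x ≤ 1 := by
    intro x
    have := hgt0 x; have := hgt1 x; have := hgf0 x; have := hgf1 x
    constructor <;> nlinarith
  have hGf : ∀ x, 0 ≤ (1 - ε) * gf x + ε * gt x ∧ (1 - ε) * gf x + ε * gt x ≤ 1 := by
    intro x
    have := hgt0 x; have := hgt1 x; have := hgf0 x; have := hgf1 x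
    constructor <;> nlinarith
  have sdt := sdpi h0.le hε1 n (fun x => (1 - ε) * gt x + ε * gf x) hGt
  have sdf := sdpi h0.le hε1 n (fun x => (1 - ε) * gf x + ε * gt x) hGf
  have hR : ∑ y, binEntropy (noise ε (n + 1) (ind f) y)
      = ∑ y', binEntropy (noise ε n (fun x => (1 - ε) * gt x + ε * gf x) y')
        + ∑ y', binEntropy (noise ε n (fun x => (1 - ε) * gf x + ε * gt x) y') := by
    rw [sum_insertNth i, Fintype.sum_bool]
    simp only [noise_insertNth]
    rw [hgt, hgf]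
    rfl
  -- the four counts
  obtain ⟨a, ha⟩ : ∃ a : ℝ, a = ∑ x', gt x' * (1 - gf x') := ⟨_, rfl⟩
  obtain ⟨a', ha'⟩ : ∃ a' : ℝ, a' = ∑ x', (1 - gt x') * gf x' := ⟨_, rfl⟩
  obtain ⟨p, hp⟩ : ∃ p : ℝ, p = ∑ x', gt x' * gf x' := ⟨_, rfl⟩
  obtain ⟨q, hq⟩ : ∃ q : ℝ, q = ∑ x', (1 - gt x') * (1 - gf x') := ⟨_, rfl⟩
  have ha0 : 0 ≤ a := by
    rw [ha]
    exact Finset.sum_nonneg fun x _ => mul_nonneg (hgt0 x) (by linarith [hgf1 x])
  have ha'0 : 0 ≤ a' := by
    rw [ha']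
    exact Finset.sum_nonneg fun x _ => mul_nonneg (by linarith [hgt1 x]) (hgf0 x)
  have hp0 : 0 ≤ p := by
    rw [hp]
    exact Finset.sum_nonneg fun x _ => mul_nonneg (hgt0 x) (hgf0 x)
  have hq0 : 0 ≤ q := by
    rw [hq]
    exact Finset.sum_nonneg fun x _ => mul_nonneg (by linarith [hgt1 x]) (by linarith [hgf1 x])
  have hN : (2 : ℝ) ^ n = a + a' + p + q := by
    rw [← card_cube n, ha, ha', hp, hq, ← Finset.sum_add_distrib, ← Finset.sum_add_distrib,
      ← Finset.sum_add_distrib]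
    apply Finset.sum_congr rfl
    intro x _
    ring
  have hDsum : ∑ x' : Fin n → Bool,
      (if f (i.insertNth true x') ≠ f (i.insertNth false x') then (1 : ℝ) else 0) = a + a' := by
    rw [ha, ha', ← Finset.sum_add_distrib]
    apply Finset.sum_congr rfl
    intro x _
    rw [hgt, hgf]
    exact ne_indicator _ _
  have hSGt : ∑ x', binEntropy ((1 - ε) * gt x' + ε * gf x') = (a + a') * binEntropy ε := by
    rw [ha, ha', ← Finset.sum_add_distrib, Finset.sum_mul]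
    apply Finset.sum_congr rfl
    intro x _
    rw [hgt, hgf]
    exact binEntropy_mix_ne _ _
  have hSGf : ∑ x', binEntropy ((1 - ε) * gf x' + ε * gt x') = (a + a') * binEntropy ε := by
    rw [ha, ha', ← Finset.sum_add_distrib, Finset.sum_mul]
    apply Finset.sum_congr rfl
    intro x _
    rw [hgt, hgf]
    have := binEntropy_mix_ne (ε := ε) (f (i.insertNth false x)) (f (i.insertNth true x))
    simp only [ind]
    rw [this]
    ring
  have hQt : ∑ x', ((1 - ε) * gt x' + ε * gf x') = (1 - ε) * a + ε * a' + p := by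
    rw [ha, ha', hp, Finset.mul_sum, Finset.mul_sum, ← Finset.sum_add_distrib,
      ← Finset.sum_add_distrib]
    apply Finset.sum_congr rfl
    intro x _
    ring
  have hQt' : ∑ x', (1 - ((1 - ε) * gt x' + ε * gf x')) = ε * a + (1 - ε) * a' + q := by
    rw [ha, ha', hq, Finset.mul_sum, Finset.mul_sum, ← Finset.sum_add_distrib,
      ← Finset.sum_add_distrib]
    apply Finset.sum_congr rfl
    intro x _
    ring
  have hQf : ∑ x', ((1 - ε) * gf x' + ε * gt x') = ε * a + (1 - ε) * a' + p := by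
    rw [ha, ha', hp, Finset.mul_sum, Finset.mul_sum, ← Finset.sum_add_distrib,
      ← Finset.sum_add_distrib]
    apply Finset.sum_congr rfl
    intro x _
    ring
  have hQf' : ∑ x', (1 - ((1 - ε) * gf x' + ε * gt x')) = (1 - ε) * a + ε * a' + q := by
    rw [ha, ha', hq, Finset.mul_sum, Finset.mul_sum, ← Finset.sum_add_distrib,
      ← Finset.sum_add_distrib]
    apply Finset.sum_congr rfl
    intro x _
    ring
  rw [hSGt, hQt, hQt'] at sdt
  rw [hSGf, hQf, hQf'] at sdf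
  have hZa : ∑ x, ind f x = ((1 - ε) * a + ε * a' + p) + (ε * a + (1 - ε) * a' + p) := by
    rw [sum_insertNth i, Fintype.sum_bool, ← hQt, ← hQf, ← Finset.sum_add_distrib,
      ← Finset.sum_add_distrib]
    apply Finset.sum_congr rfl
    intro x _
    rw [hgt, hgf]
    ring
  have hZb : ∑ x, (1 - ind f x)
      = 2 * (2 : ℝ) ^ n - ((1 - ε) * a + ε * a' + p) - (ε * a + (1 - ε) * a' + p) := by
    rw [Finset.sum_sub_distrib, hZa, card_cube]
    ring
  rw [hR, hZa, hZb]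
  rw [hDsum] at hD
  have hσ0 : 0 ≤ √(ε * (1 - ε)) := Real.sqrt_nonneg _
  have hDpos : 0 < a + a' := by
    rcases (add_nonneg ha0 ha'0).lt_or_eq with h | h
    · exact h
    · rw [← h] at hD
      have h2n : (0 : ℝ) < 2 ^ n := by positivity
      linarith
  have hs : p + q ≤ 2 * √(ε * (1 - ε)) * (a + a') := by
    rw [hN] at hD
    linarith
  exact main_scalar2 h0 h1 ha0 ha'0 hp0 hq0 hN hDpos hs sdt sdf


/-- **Courtade-Kumar inequality for functions with an influential coordinate.**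
If some coordinate `i` of `f : {0,1}^n → {0,1}` satisfies
`1 - Inf_i(f) ≤ 2 √(ε (1 - ε)) Inf_i(f)`, then `I(f(X);Y) ≤ 1 - h₂(ε)`, where `Y` is the output
of the binary symmetric channel with crossover probability `ε ∈ (0, 1/2)` on the uniform input
`X`. -/
theorem ck_influence_sqrt (n : ℕ) (f : (Fin n → Bool) → Bool) (ε : ℝ) (h0 : 0 < ε)
    (h1 : ε < 1 / 2) (i : Fin n)
    (hI : 1 - influence n f i ≤ 2 * √(ε * (1 - ε)) * influence n f i) :
    mutualInfoBits (jointPmf n ε f)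
      ≤ 1 + ε * Real.logb 2 ε + (1 - ε) * Real.logb 2 (1 - ε) := by
  cases n with
  | zero => exact i.elim0
  | succ m =>
    rw [influence_eq] at hI
    have h2m : (0 : ℝ) < 2 ^ m := by positivity
    have hD : (2 : ℝ) ^ m - ∑ x' : Fin m → Bool,
          (if f (i.insertNth true x') ≠ f (i.insertNth false x') then (1 : ℝ) else 0)
        ≤ 2 * √(ε * (1 - ε)) * ∑ x' : Fin m → Bool,
          (if f (i.insertNth true x') ≠ f (i.insertNth false x') then (1 : ℝ) else 0) := by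
      have h3 := mul_le_mul_of_nonneg_right hI h2m.le
      have e1 : (1 - (∑ x' : Fin m → Bool,
          (if f (i.insertNth true x') ≠ f (i.insertNth false x') then (1 : ℝ) else 0)) / 2 ^ m)
            * 2 ^ m
          = (2 : ℝ) ^ m - ∑ x' : Fin m → Bool,
          (if f (i.insertNth true x') ≠ f (i.insertNth false x') then (1 : ℝ) else 0) := by
        field_simp
      have e2 : 2 * √(ε * (1 - ε)) * ((∑ x' : Fin m → Bool,
          (if f (i.insertNth true x') ≠ f (i.insertNth false x') then (1 : ℝ) else 0)) / 2 ^ m)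
            * 2 ^ m
          = 2 * √(ε * (1 - ε)) * ∑ x' : Fin m → Bool,
          (if f (i.insertNth true x') ≠ f (i.insertNth false x') then (1 : ℝ) else 0) := by
        field_simp
      rw [e1, e2] at h3
      exact h3
    have hmain := main_nat2 h0 h1 i f hD
    have hmi := mi_formula (m + 1) ε f
    have hlog2 : 0 < log 2 := by positivity
    have hc : (1 / 2 : ℝ) ^ (m + 1) * (2 * (2 : ℝ) ^ m) = 1 := by
      rw [pow_succ, one_div, inv_pow]
      field_simp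
    have hle : mutualInfoBits (jointPmf (m + 1) ε f) * log 2 ≤ log 2 - binEntropy ε := by
      rw [hmi]
      have hcpos : (0 : ℝ) ≤ (1 / 2 : ℝ) ^ (m + 1) := by positivity
      have := mul_le_mul_of_nonneg_left hmain hcpos
      calc (1 / 2 : ℝ) ^ (m + 1) * (Hs (∑ x, ind f x) (∑ x, (1 - ind f x))
              - ∑ y, binEntropy (noise ε (m + 1) (ind f) y))
          ≤ (1 / 2 : ℝ) ^ (m + 1) * (2 * (2 : ℝ) ^ m * (log 2 - binEntropy ε)) := this
        _ = ((1 / 2 : ℝ) ^ (m + 1) * (2 * (2 : ℝ) ^ m)) * (log 2 - binEntropy ε) := by ring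
        _ = log 2 - binEntropy ε := by rw [hc, one_mul]
    have hrhs : 1 + ε * Real.logb 2 ε + (1 - ε) * Real.logb 2 (1 - ε)
        = (log 2 - binEntropy ε) / log 2 := by
      rw [binEntropy_eq_logs]
      unfold Real.logb
      field_simp
      ring
    rw [hrhs, le_div_iff₀ hlog2]
    exact hle

end Vale.Agent.H86.CK
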