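import Vale.Agent.H86.CK.Scalar

/-!
A sharper scalar inequality for the Courtade-Kumar problem (P322): the linear lower bound for the
entropy of a tilted two-point vector holds up to the tilt `√(ε (1 - ε))`.
-/

namespace Vale.Agent.H86.CK

open Real

/-- A function on `(0, 1]` with nonpositive derivative that vanishes at `1` is nonnegative. -/
lemma nonneg_of_deriv_nonpos_of_eq_zero {f f' : ℝ → ℝ}
    (hd : ∀ x, 0 < x → HasDerivAt f (f' x) x)
    (hneg : ∀ x, 0 < x → x < 1 → f' x ≤ 0) (h1 : f 1 = 0) {w : ℝ} (hw0 : 0 < w) (hw1 : w ≤ 1) :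
    0 ≤ f w := by
  have hanti : AntitoneOn f (Set.Icc w 1) := by
    apply antitoneOn_of_hasDerivWithinAt_nonpos (convex_Icc w 1) (f' := f')
    · intro x hx
      exact (hd x (lt_of_lt_of_le hw0 hx.1)).continuousAt.continuousWithinAt
    · intro x hx
      rw [interior_Icc] at hx
      exact (hd x (lt_trans hw0 hx.1)).hasDerivWithinAt
    · intro x hx
      rw [interior_Icc] at hx
      exact hneg x (lt_trans hw0 hx.1) hx.2
  have := hanti ⟨le_rfl, hw1⟩ ⟨hw1, le_rfl⟩ hw1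
  rw [h1] at this
  exact this

/-- A Pade-type upper bound for the logarithm. -/
lemma log_one_add_le_pade {z : ℝ} (hz : 0 ≤ z) : log (1 + z) ≤ z * (6 + z) / (6 + 4 * z) := by
  have hd : ∀ x : ℝ, 0 ≤ x → HasDerivAt (fun x : ℝ => x * (6 + x) / (6 + 4 * x) - log (1 + x))
      (4 * x ^ 3 / ((6 + 4 * x) ^ 2 * (1 + x))) x := by
    intro x hx
    have h1 : HasDerivAt (fun x : ℝ => x * (6 + x)) (1 * (6 + x) + x * 1) x :=
      (hasDerivAt_id x).mul ((hasDerivAt_id x).const_add 6)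
    have h2 : HasDerivAt (fun x : ℝ => 6 + 4 * x) (4 * 1) x :=
      ((hasDerivAt_id x).const_mul 4).const_add 6
    have h3 : HasDerivAt (fun x : ℝ => log (1 + x)) (1 / (1 + x)) x :=
      ((hasDerivAt_id x).const_add 1).log (by positivity)
    have h := (h1.div h2 (by positivity)).sub h3
    refine HasDerivAt.congr_deriv h ?_
    have e1 : (6 : ℝ) + 4 * x ≠ 0 := by positivity
    have e2 : (1 : ℝ) + x ≠ 0 := by positivity
    field_simp
    ring
  have hmono : MonotoneOn (fun x : ℝ => x * (6 + x) / (6 + 4 * x) - log (1 + x)) (Set.Icc 0 z) := by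
    apply monotoneOn_of_hasDerivWithinAt_nonneg (convex_Icc 0 z)
      (f' := fun x => 4 * x ^ 3 / ((6 + 4 * x) ^ 2 * (1 + x)))
    · intro x hx
      exact (hd x hx.1).continuousAt.continuousWithinAt
    · intro x hx
      rw [interior_Icc] at hx
      exact (hd x hx.1.le).hasDerivWithinAt
    · intro x hx
      rw [interior_Icc] at hx
      have := hx.1
      positivity
  have := hmono ⟨le_rfl, hz⟩ ⟨hz, le_rfl⟩ hz
  simp only [zero_mul, zero_div, add_zero, log_one, sub_zero] at this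
  linarith

/-- The auxiliary function `N₃`. -/
noncomputable def auxN3 (w : ℝ) : ℝ :=
  (1 + w) ^ 2 / w ^ 2 * log (1 + w) - (1 + w) ^ 2 / w ^ 3 * log (1 + w ^ 2) - log w

/-- The derivative of `N₃`. -/
noncomputable def auxN3' (w : ℝ) : ℝ :=
  (1 + w) / w ^ 4 * ((3 + w) * log (1 + w ^ 2) - 2 * w * log (1 + w))
    - (1 + 4 * w + w ^ 2) / (w ^ 2 * (1 + w ^ 2))

lemma hasDerivAt_auxN3 {w : ℝ} (hw : 0 < w) : HasDerivAt auxN3 (auxN3' w) w := by
  have h1 : HasDerivAt (fun w : ℝ => 1 + w) 1 w := (hasDerivAt_id w).const_add 1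
  have h2 : HasDerivAt (fun w : ℝ => (1 + w) ^ 2) (2 * (1 + w)) w :=
    (h1.pow 2).congr_deriv (by norm_num)
  have h3 : HasDerivAt (fun w : ℝ => w ^ 2) (2 * w) w :=
    (hasDerivAt_pow 2 w).congr_deriv (by norm_num)
  have h4 : HasDerivAt (fun w : ℝ => w ^ 3) (3 * w ^ 2) w :=
    (hasDerivAt_pow 3 w).congr_deriv (by norm_num)
  have h5 : HasDerivAt (fun w : ℝ => log (1 + w)) (1 / (1 + w)) w := h1.log (by positivity)
  have h6 : HasDerivAt (fun w : ℝ => log (1 + w ^ 2)) (2 * w / (1 + w ^ 2)) w :=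
    (h3.const_add 1).log (by positivity)
  have h7 : HasDerivAt (fun w : ℝ => log w) (1 / w) w :=
    (Real.hasDerivAt_log hw.ne').congr_deriv (by simp)
  have hA := (h2.div h3 (by positivity)).mul h5
  have hB := (h2.div h4 (by positivity)).mul h6
  have h := (hA.sub hB).sub h7
  have e1 : (1 : ℝ) + w ≠ 0 := by positivity
  have e2 : (1 : ℝ) + w ^ 2 ≠ 0 := by positivity
  have e : (2 * (1 + w) * w ^ 2 - (1 + w) ^ 2 * (2 * w)) / (w ^ 2) ^ 2 * log (1 + w)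
        + (1 + w) ^ 2 / w ^ 2 * (1 / (1 + w))
      - ((2 * (1 + w) * w ^ 3 - (1 + w) ^ 2 * (3 * w ^ 2)) / (w ^ 3) ^ 2 * log (1 + w ^ 2)
        + (1 + w) ^ 2 / w ^ 3 * (2 * w / (1 + w ^ 2))) - 1 / w = auxN3' w := by
    unfold auxN3'
    field_simp
    ring
  exact h.congr_deriv e

lemma auxN3'_nonpos {w : ℝ} (hw0 : 0 < w) (hw1 : w < 1) : auxN3' w ≤ 0 := by
  unfold auxN3'
  have hU := log_one_add_le_pade (z := w ^ 2) (by positivity)
  have hL := le_log_one_add_of_nonneg hw0.le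
  have hB : (3 + w) * log (1 + w ^ 2) - 2 * w * log (1 + w)
      ≤ (3 + w) * (w ^ 2 * (6 + w ^ 2) / (6 + 4 * w ^ 2)) - 2 * w * (2 * w / (w + 2)) := by
    have m1 := mul_le_mul_of_nonneg_left hU (by linarith : (0 : ℝ) ≤ 3 + w)
    have m2 := mul_le_mul_of_nonneg_left hL (by linarith : (0 : ℝ) ≤ 2 * w)
    linarith
  have hpos : 0 ≤ (1 + w) / w ^ 4 := by positivity
  have hC := mul_le_mul_of_nonneg_left hB hpos
  have hE : (1 + w) / w ^ 4
      * ((3 + w) * (w ^ 2 * (6 + w ^ 2) / (6 + 4 * w ^ 2)) - 2 * w * (2 * w / (w + 2)))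
      = (1 + w) * (12 + 30 * w - 4 * w ^ 2 + 5 * w ^ 3 + w ^ 4)
        / (w ^ 2 * ((6 + 4 * w ^ 2) * (w + 2))) := by
    field_simp
    ring
  rw [hE] at hC
  have hF : (1 + w) * (12 + 30 * w - 4 * w ^ 2 + 5 * w ^ 3 + w ^ 4)
        / (w ^ 2 * ((6 + 4 * w ^ 2) * (w + 2)))
      ≤ (1 + 4 * w + w ^ 2) / (w ^ 2 * (1 + w ^ 2)) := by
    rw [div_le_div_iff₀ (by positivity) (by positivity)]
    have h2 : w ^ 2 ≤ w := by nlinarith
    have h3 : w ^ 3 ≤ w := by nlinarith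
    have h5 : w ^ 5 ≤ w := by nlinarith [pow_pos hw0 3, pow_pos hw0 4]
    have h6 : w ^ 6 ≤ w := by nlinarith [pow_pos hw0 3, pow_pos hw0 4, pow_pos hw0 5]
    have h4 : 0 ≤ w ^ 4 := by positivity
    have hp : 0 ≤ 12 + 6 * w - w ^ 2 - 8 * w ^ 3 + 2 * w ^ 4 - 6 * w ^ 5 - w ^ 6 := by linarith
    have hw3 : 0 ≤ w ^ 3 := by positivity
    have := mul_nonneg hw3 hp
    nlinarith [this]
  linarith

lemma auxN3_one : auxN3 1 = 0 := by
  unfold auxN3
  norm_num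

lemma auxN3_nonneg {w : ℝ} (hw0 : 0 < w) (hw1 : w ≤ 1) : 0 ≤ auxN3 w :=
  nonneg_of_deriv_nonpos_of_eq_zero (fun _ hx => hasDerivAt_auxN3 hx)
    (fun _ hx0 hx1 => auxN3'_nonpos hx0 hx1) auxN3_one hw0 hw1

/-- The auxiliary function `N₂`. -/
noncomputable def auxN2 (w : ℝ) : ℝ :=
  2 / w * log (1 + w) + 2 * w / (1 + w) * log w - (1 + 1 / w ^ 2) * log (1 + w ^ 2)

lemma hasDerivAt_auxN2 {w : ℝ} (hw : 0 < w) :
    HasDerivAt auxN2 (-(2 / (1 + w) ^ 2) * auxN3 w) w := by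
  have h1 : HasDerivAt (fun w : ℝ => 1 + w) 1 w := (hasDerivAt_id w).const_add 1
  have h3 : HasDerivAt (fun w : ℝ => w ^ 2) (2 * w) w :=
    (hasDerivAt_pow 2 w).congr_deriv (by norm_num)
  have h5 : HasDerivAt (fun w : ℝ => log (1 + w)) (1 / (1 + w)) w := h1.log (by positivity)
  have h6 : HasDerivAt (fun w : ℝ => log (1 + w ^ 2)) (2 * w / (1 + w ^ 2)) w :=
    (h3.const_add 1).log (by positivity)
  have h7 : HasDerivAt (fun w : ℝ => log w) (1 / w) w :=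
    (Real.hasDerivAt_log hw.ne').congr_deriv (by simp)
  have h8 : HasDerivAt (fun w : ℝ => 2 / w) (-2 / w ^ 2) w :=
    ((hasDerivAt_const w (2 : ℝ)).div (hasDerivAt_id w) hw.ne').congr_deriv (by simp)
  have h9 : HasDerivAt (fun w : ℝ => 2 * w / (1 + w)) (2 / (1 + w) ^ 2) w := by
    have e1 : (1 : ℝ) + w ≠ 0 := by positivity
    refine (((hasDerivAt_id w).const_mul (2 : ℝ)).div h1 e1).congr_deriv ?_
    simp only [id]
    field_simp
    ring
  have h10 : HasDerivAt (fun w : ℝ => 1 + 1 / w ^ 2) (-2 / w ^ 3) w := by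
    have e1 : w ^ 2 ≠ 0 := by positivity
    refine (((hasDerivAt_const w (1 : ℝ)).div h3 e1).const_add 1).congr_deriv ?_
    field_simp
    ring
  have h := ((h8.mul h5).add (h9.mul h7)).sub (h10.mul h6)
  have e1 : (1 : ℝ) + w ≠ 0 := by positivity
  have e2 : (1 : ℝ) + w ^ 2 ≠ 0 := by positivity
  refine HasDerivAt.congr_deriv h ?_
  unfold auxN3
  field_simp
  ring

lemma auxN2_one : auxN2 1 = 0 := by
  unfold auxN2
  norm_num

lemma auxN2_nonneg {w : ℝ} (hw0 : 0 < w) (hw1 : w ≤ 1) : 0 ≤ auxN2 w := by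
  refine nonneg_of_deriv_nonpos_of_eq_zero (f' := fun w => -(2 / (1 + w) ^ 2) * auxN3 w)
    (fun _ hx => hasDerivAt_auxN2 hx) ?_ auxN2_one hw0 hw1
  intro x hx0 hx1
  have h := auxN3_nonneg hx0 hx1.le
  have h2 : 0 ≤ 2 / (1 + x) ^ 2 := by positivity
  have := mul_nonneg h2 h
  linarith

/-- The basic three-logarithm inequality. -/
lemma D_nonneg {w : ℝ} (hw0 : 0 < w) (hw1 : w ≤ 1) :
    (1 + w) * (1 + w ^ 2) * log (1 + w ^ 2)
      ≤ 2 * w * (1 + w) * log (1 + w) + 2 * w ^ 3 * log w := by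
  have h := auxN2_nonneg hw0 hw1
  have e : w ^ 2 * (1 + w) * auxN2 w
      = 2 * w * (1 + w) * log (1 + w) + 2 * w ^ 3 * log w
        - (1 + w) * (1 + w ^ 2) * log (1 + w ^ 2) := by
    unfold auxN2
    have e1 : (1 : ℝ) + w ≠ 0 := by positivity
    field_simp
    ring
  have h2 : 0 ≤ w ^ 2 * (1 + w) * auxN2 w := mul_nonneg (by positivity) h
  linarith

lemma Hs_one_right (w : ℝ) : Hs w 1 = (1 + w) * log (1 + w) - w * log w := by
  unfold Hs negMulLog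
  rw [add_comm w 1]
  simp
  ring

/-- The linear lower bound at the endpoint `t = √(ε (1 - ε))`. -/
lemma V_lower_sqrt {ε : ℝ} (h0 : 0 < ε) (h1 : ε < 1 / 2) :
    binEntropy ε + binEntropy ε / (2 * ε * (1 - ε)) * √(ε * (1 - ε))
      ≤ Hs (ε + √(ε * (1 - ε))) (1 - ε + √(ε * (1 - ε))) := by
  obtain ⟨u, hu⟩ : ∃ u : ℝ, u = 1 - ε := ⟨_, rfl⟩
  have hu0 : 0 < u := by rw [hu]; linarith
  have hprod : 0 < ε * (1 - ε) := mul_pos h0 (by linarith)
  obtain ⟨σ, hσ⟩ : ∃ σ : ℝ, σ = √(ε * (1 - ε)) := ⟨_, rfl⟩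
  have hσ0 : 0 < σ := by rw [hσ]; exact Real.sqrt_pos.mpr hprod
  have hσ2 : σ ^ 2 = ε * (1 - ε) := by rw [hσ]; exact Real.sq_sqrt hprod.le
  obtain ⟨w, hw⟩ : ∃ w : ℝ, w = σ / u := ⟨_, rfl⟩
  have hw0 : 0 < w := by rw [hw]; positivity
  have hσw : σ = u * w := by rw [hw]; field_simp
  have hεw : ε = u * w ^ 2 := by
    have h2 : (u * w) ^ 2 = ε * u := by rw [← hσw, hσ2, hu]
    have h3 : u * (u * w ^ 2) = u * ε := by nlinarith
    exact (mul_left_cancel₀ hu0.ne' h3).symm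
  have hu1 : u * (1 + w ^ 2) = 1 := by
    have h2 : u + ε = 1 := by rw [hu]; ring
    rw [mul_add, mul_one, ← hεw]
    exact h2
  have hw1 : w ≤ 1 := by
    have h2 : u * w ^ 2 ≤ u * 1 := by rw [← hεw, hu]; linarith
    have h3 : w ^ 2 ≤ 1 := le_of_mul_le_mul_left h2 hu0
    nlinarith
  have hD := D_nonneg hw0 hw1
  rw [← hσ, ← hu]
  -- the two entropies in terms of `w`
  have hHs : Hs (ε + σ) (u + σ) = u * ((1 + w) * ((1 + w) * log (1 + w) - w * log w)) := by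
    have e1 : ε + σ = u * ((1 + w) * w) := by rw [hεw, hσw]; ring
    have e2 : u + σ = u * ((1 + w) * 1) := by rw [hσw]; ring
    rw [e1, e2, Hs_mul, Hs_mul, Hs_one_right]
  have hH : binEntropy ε = u * ((1 + w ^ 2) * log (1 + w ^ 2) - 2 * w ^ 2 * log w) := by
    rw [binEntropy_eq_Hs, ← hu]
    have e1 : Hs ε u = Hs (u * w ^ 2) (u * 1) := by rw [← hεw, mul_one]
    rw [e1, Hs_mul, Hs_one_right]
    have e2 : log (w ^ 2) = 2 * log w := by
      rw [Real.log_pow]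
      norm_num
    rw [e2]
    ring
  obtain ⟨E₂, hE₂⟩ : ∃ E₂ : ℝ, E₂ = (1 + w ^ 2) * log (1 + w ^ 2) - 2 * w ^ 2 * log w :=
    ⟨_, rfl⟩
  obtain ⟨E₁, hE₁⟩ : ∃ E₁ : ℝ, E₁ = (1 + w) * log (1 + w) - w * log w := ⟨_, rfl⟩
  rw [← hE₂] at hH
  rw [← hE₁] at hHs
  have key : E₂ * (1 + w) ≤ 2 * w * E₁ := by
    rw [hE₂, hE₁]
    linarith
  rw [hHs, hH]
  have e3 : u * E₂ + u * E₂ / (2 * ε * u) * σ = u * (1 + w) * (E₂ * (1 + w)) / (2 * w) := by
    rw [hεw, hσw]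
    field_simp
    linear_combination (-E₂) * hu1
  have e4 : u * ((1 + w) * E₁) = u * (1 + w) * (2 * w * E₁) / (2 * w) := by
    field_simp
  rw [e3, e4]
  apply div_le_div_of_nonneg_right _ (by positivity)
  exact mul_le_mul_of_nonneg_left key (by positivity)

/-- Linear lower bound for the entropy of a tilted two-point vector, valid up to the tilt
`√(ε (1 - ε))`. -/
lemma V_lower' {ε t : ℝ} (h0 : 0 < ε) (h1 : ε < 1 / 2) (ht0 : 0 ≤ t)
    (ht1 : t ≤ √(ε * (1 - ε))) :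
    binEntropy ε + binEntropy ε / (2 * ε * (1 - ε)) * t ≤ Hs (ε + t) (1 - ε + t) := by
  have hprod : 0 < ε * (1 - ε) := mul_pos h0 (by linarith)
  obtain ⟨σ, hσ⟩ : ∃ σ : ℝ, σ = √(ε * (1 - ε)) := ⟨_, rfl⟩
  have hσ0 : 0 < σ := by rw [hσ]; exact Real.sqrt_pos.mpr hprod
  have hend := V_lower_sqrt h0 h1
  rw [← hσ] at hend ht1
  obtain ⟨l, hl⟩ : ∃ l : ℝ, l = t / σ := ⟨_, rfl⟩
  have hl0 : 0 ≤ l := by rw [hl]; positivity
  have hl1 : l ≤ 1 := by rw [hl]; exact (div_le_one hσ0).mpr ht1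
  have hlt : l * σ = t := by rw [hl]; field_simp
  have hsup := Hs_superadd (a := (1 - l) * ε) (b := (1 - l) * (1 - ε))
    (c := l * (ε + σ)) (d := l * (1 - ε + σ))
    (mul_nonneg (by linarith) h0.le) (mul_nonneg (by linarith) (by linarith))
    (mul_nonneg hl0 (by linarith)) (mul_nonneg hl0 (by linarith))
  rw [Hs_mul, Hs_mul, ← binEntropy_eq_Hs] at hsup
  have e1 : (1 - l) * ε + l * (ε + σ) = ε + t := by rw [← hlt]; ring
  have e2 : (1 - l) * (1 - ε) + l * (1 - ε + σ) = 1 - ε + t := by rw [← hlt]; ring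
  rw [e1, e2] at hsup
  have h2 := mul_le_mul_of_nonneg_left hend hl0
  have e3 : l * (binEntropy ε + binEntropy ε / (2 * ε * (1 - ε)) * σ)
      = l * binEntropy ε + binEntropy ε / (2 * ε * (1 - ε)) * t := by
    rw [← hlt]; ring
  rw [e3] at h2
  have e4 : (1 - l) * binEntropy ε = binEntropy ε - l * binEntropy ε := by ring
  rw [e4] at hsup
  linarith

end Vale.Agent.H86.CK
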